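import Vale.Agent.P146.H178.End1
import Vale.Agent.P146.H9.Mod2

set_option linter.all false

/-!
# P146: a priori sizes of the natural functional from the response at a larger exponent
-/

open MeasureTheory ProbabilityTheory Filter Topology Set

namespace Vale.Agent.P146.H178

open H877 (kap At contig_four kap_nonneg)
open H9 (Phn KV)

/-- The a priori package at `(y, V)` for all `V ≤ W`. -/
structure AP (β s0 : ℝ) (n : ℕ) (y W : ℝ) : Prop where
  dd : ∀ V : ℝ, 0 ≤ V → V ≤ W →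
    |Phn n β y V - Phn n β y 0 - n * V / (2 * β)| ≤ (n : ℝ) ^ (1 + s0) * y ^ 5
  tc : ∀ V : ℝ, 0 ≤ V → V ≤ W → Phn n β (2 * y) V - Phn n β y V ≤ (n : ℝ) ^ (1 + s0) * y ^ 5
  kk : ∀ V : ℝ, 0 ≤ V → V ≤ W → KV n β y V ≤ (n : ℝ) ^ (1 + s0) * y ^ 6

/-- The upper law of the exponential moments. -/
def UpK (β : ℝ) : Prop := ∀ ε : ℝ, 0 < ε → ∀ᶠ n : ℕ in atTop, ∀ x : ℝ,
  (n : ℝ) ^ (-(1 / 6) : ℝ) ≤ x → x ≤ 1 → kap β n x ≤ (n : ℝ) ^ (1 + ε) * x ^ 6

/-- Concavity in the variance of the field. -/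
def Ccv (β : ℝ) : Prop := ∀ n : ℕ, 1 ≤ n → ∀ x : ℝ, 0 < x → x ≤ 1 / 2 →
  ConcaveOn ℝ (Ici 0) (Phn n β x)

lemma Phn_mono (n : ℕ) (β v : ℝ) {x y : ℝ} (hx : 0 < x) (hxy : x ≤ y) :
    Phn n β x v ≤ Phn n β y v := by
  have h1 := (H9.Phn_sub_bd n β v hx hxy).1
  have h2 := H9.KV_nonneg n β v hx.le
  have h3 : 0 ≤ 1 / x - 1 / y := by
    have := one_div_le_one_div_of_le hx hxy
    linarith
  nlinarith [mul_nonneg h2 h3]

/-- The entropy from one doubling of the exponent. -/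
lemma KV_le_dbl (n : ℕ) (β v : ℝ) {x : ℝ} (hx : 0 < x) :
    KV n β x v ≤ 2 * x * (Phn n β (2 * x) v - Phn n β x v) := by
  have h1 := (H9.Phn_sub_bd n β v hx (show x ≤ 2 * x by linarith)).1
  have e : 1 / x - 1 / (2 * x) = 1 / (2 * x) := by
    field_simp
    ring
  rw [e] at h1
  have h2 := mul_le_mul_of_nonneg_left h1 (show 0 ≤ 2 * x by positivity)
  have e2 : 2 * x * (KV n β x v * (1 / (2 * x))) = KV n β x v := by
    field_simp
  linarith

/-- The response is nonincreasing in the field. -/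
lemma At_lin {β : ℝ} (hβ : 0 < β) {n : ℕ} (hn : 1 ≤ n) {z W : ℝ}
    (cv : ConcaveOn ℝ (Ici 0) (Phn n β z)) (hW : 0 < W) (h : 1 ≤ At β n z W) {V : ℝ}
    (hV : 0 ≤ V) (hVW : V ≤ W) : n * V / (2 * β) ≤ Phn n β z V - Phn n β z 0 := by
  have hn0 : (0 : ℝ) < n := by exact_mod_cast hn
  rw [H9.At_eq] at h
  have h1 : n * W / (2 * β) ≤ Phn n β z W - Phn n β z 0 := by
    rw [div_le_iff₀ (by positivity)]
    have h2 := mul_le_mul_of_nonneg_left h (show 0 ≤ n * W by positivity)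
    have e : n * W * (2 * β / (n * W) * (Phn n β z W - Phn n β z 0)) =
        (Phn n β z W - Phn n β z 0) * (2 * β) := by
      field_simp
    rw [e] at h2
    linarith
  have h3 := cv.2 (show (0 : ℝ) ∈ Ici 0 from mem_Ici.2 le_rfl) (show W ∈ Ici (0 : ℝ) from hW.le)
    (show 0 ≤ 1 - V / W by
      rw [sub_nonneg, div_le_one hW]
      exact hVW) (show 0 ≤ V / W by positivity) (by ring)
  simp only [smul_eq_mul, mul_zero, zero_add] at h3
  have e2 : V / W * W = V := by field_simp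
  rw [e2] at h3
  have h4 := mul_le_mul_of_nonneg_left h1 (show 0 ≤ V / W by positivity)
  have e3 : V / W * (n * W / (2 * β)) = n * V / (2 * β) := by field_simp
  rw [e3] at h4
  linarith

/-- Contiguity in the form of an upper bound of the linear response. -/
lemma D_up {β C E : ℝ} (hβ : 0 < β) {n : ℕ} (hn : 1 ≤ n) {y u V : ℝ} (hy0 : 0 < y)
    (hC : 0 ≤ C) (hE : 0 ≤ E) (hu1 : y / 2 ≤ u) (hu4 : u ≤ 1 / 4) (hV0 : 0 ≤ V) (hV1 : V ≤ 1)
    (hVy : V ≤ y ^ 2)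
    (hc : ∀ x v : ℝ, 0 < x → x ≤ 1 / 4 → 0 < v → v ≤ 1 → x * n * v / (4 * β) * (At β n x v - 1) ≤
      kap β n (2 * x) / 2 - kap β n x + C * (1 + Real.log n) + C * (n * (x * v) ^ 2))
    (hk : kap β n (2 * u) ≤ E * (2 * u) ^ 6) (hl : 1 + Real.log n ≤ E * u ^ 6)
    (hnE : n ≤ E) :
    Phn n β u V - Phn n β u 0 - n * V / (2 * β) ≤ (64 + 34 * C) * E * u ^ 5 := by
  have hn0 : (0 : ℝ) < n := by exact_mod_cast hn
  have hu0 : 0 < u := by linarith
  rcases hV0.eq_or_lt with h0 | h0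
  · subst h0
    simp only [mul_zero, zero_div, sub_self]
    positivity
  have h1 := hc u V hu0 hu4 h0 hV1
  have h2 := kap_nonneg β n u
  rw [H9.At_eq] at h1
  have e1 : u * n * V / (4 * β) * (2 * β / (n * V) * (Phn n β u V - Phn n β u 0) - 1) =
      u / 2 * (Phn n β u V - Phn n β u 0 - n * V / (2 * β)) := by
    field_simp
    ring
  rw [e1] at h1
  have h3 : n * (u * V) ^ 2 ≤ E * (16 * u ^ 6) := by
    have h4 : V ^ 2 ≤ (4 * u ^ 2) ^ 2 := by
      refine pow_le_pow_left₀ hV0 ?_ 2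
      nlinarith
    have h5 : (u * V) ^ 2 ≤ 16 * u ^ 6 := by
      have : (u * V) ^ 2 = u ^ 2 * V ^ 2 := by ring
      rw [this]
      calc u ^ 2 * V ^ 2 ≤ u ^ 2 * (4 * u ^ 2) ^ 2 := by gcongr
        _ = 16 * u ^ 6 := by ring
    exact mul_le_mul hnE h5 (by positivity) hE
  have h6 : u / 2 * (Phn n β u V - Phn n β u 0 - n * V / (2 * β)) ≤
      u / 2 * ((64 + 34 * C) * E * u ^ 5) := by
    have h7 : C * (1 + Real.log n) ≤ C * (E * u ^ 6) := mul_le_mul_of_nonneg_left hl hC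
    have h8 : C * (n * (u * V) ^ 2) ≤ C * (E * (16 * u ^ 6)) := mul_le_mul_of_nonneg_left h3 hC
    have e2 : u / 2 * ((64 + 34 * C) * E * u ^ 5) =
        E * (2 * u) ^ 6 / 2 + C * (E * u ^ 6) + C * (E * (16 * u ^ 6)) := by ring
    rw [e2]
    linarith
  exact le_of_mul_le_mul_left h6 (by positivity)

/-- The a priori package for one `n`. -/
theorem ap_core {β C E : ℝ} (hβ : 0 < β) {n : ℕ} (hn : 1 ≤ n) (hC : 0 ≤ C) (hE : 0 ≤ E)
    (hnE : n ≤ E)
    (cv : ∀ x : ℝ, 0 < x → x ≤ 1 / 2 → ConcaveOn ℝ (Ici 0) (Phn n β x))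
    (hc : ∀ x v : ℝ, 0 < x → x ≤ 1 / 4 → 0 < v → v ≤ 1 → x * n * v / (4 * β) * (At β n x v - 1) ≤
      kap β n (2 * x) / 2 - kap β n x + C * (1 + Real.log n) + C * (n * (x * v) ^ 2))
    {l : ℝ} (hl0 : 0 < l) (hk : ∀ x : ℝ, l ≤ x → x ≤ 1 → kap β n x ≤ E * x ^ 6)
    (hlog : 1 + Real.log n ≤ E * (l / 2) ^ 6) {y z W : ℝ} (hy : l ≤ y) (hy1 : y ≤ 1 / 16)
    (hyz : y ≤ z) (hz : z ≤ 2 * y) (hW0 : 0 < W) (hWy : W ≤ y ^ 2) (hA : 1 ≤ At β n z W)
    {u : ℝ} (hu1 : y / 2 ≤ u) (hu2 : u ≤ 2 * y) {V : ℝ} (hV0 : 0 ≤ V) (hVW : V ≤ W) :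
    |Phn n β u V - Phn n β u 0 - n * V / (2 * β)| ≤ 10 ^ 8 * (1 + C) * E * u ^ 5 ∧
    Phn n β (2 * u) V - Phn n β u V ≤ 10 ^ 8 * (1 + C) * E * u ^ 5 ∧
    KV n β u V ≤ 2 * (10 ^ 8 * (1 + C)) * E * u ^ 6 := by
  have hn0 : (0 : ℝ) < n := by exact_mod_cast hn
  have hy0 : 0 < y := hl0.trans_le hy
  have hu0 : 0 < u := by linarith
  have hz0 : 0 < z := by linarith
  have hV1 : V ≤ 1 := by
    have : y ^ 2 ≤ 1 := by nlinarith
    linarith
  have hVy : V ≤ y ^ 2 := hVW.trans hWy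
  -- the upper bound of the linear response
  have hD : ∀ w : ℝ, y / 2 ≤ w → w ≤ 4 * y →
      Phn n β w V - Phn n β w 0 - n * V / (2 * β) ≤ (64 + 34 * C) * E * w ^ 5 := by
    intro w hw1 hw2
    have hw0 : 0 < w := by linarith
    refine D_up hβ hn hy0 hC hE hw1 (by linarith) hV0 hV1 hVy hc
      (hk (2 * w) (by linarith) (by linarith)) (hlog.trans ?_) hnE
    have : l / 2 ≤ w := by linarith
    gcongr
  -- the response at `z`
  have hDz := At_lin hβ hn (cv z hz0 (by linarith)) hW0 hA hV0 hVW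
  have hkn : ∀ w : ℝ, 0 ≤ kap β n w := fun w => kap_nonneg β n w
  have hkw : ∀ w : ℝ, y ≤ w → w ≤ 8 * y → kap β n w / w ≤ E * w ^ 5 := by
    intro w hw1 hw2
    have hw0 : 0 < w := by linarith
    rw [div_le_iff₀ hw0]
    have := hk w (by linarith) (by linarith)
    linarith [show E * w ^ 5 * w = E * w ^ 6 by ring]
  have h0 : ∀ a b : ℝ, 0 < a → a ≤ b → y ≤ b → b ≤ 8 * y →
      Phn n β b 0 - Phn n β a 0 ≤ E * b ^ 5 := by
    intro a b ha hab hb1 hb2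
    rw [H9.Phn_kap β n ha (ha.trans_le hab)]
    have h1 := hkw b hb1 hb2
    have h2 : 0 ≤ kap β n a / a := div_nonneg (hkn a) ha.le
    linarith
  -- the entropy at `z`
  have hTz : Phn n β (2 * z) V - Phn n β z V ≤ (32 * (64 + 34 * C) + 32) * E * z ^ 5 := by
    have h1 := hD (2 * z) (by linarith) (by linarith)
    have h2 := h0 z (2 * z) hz0 (by linarith) (by linarith) (by linarith)
    have e1 : (64 + 34 * C) * E * (2 * z) ^ 5 = 32 * (64 + 34 * C) * E * z ^ 5 := by ring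
    have e2 : E * (2 * z) ^ 5 = 32 * E * z ^ 5 := by ring
    rw [e1] at h1
    rw [e2] at h2
    linarith
  have hKz : KV n β z V ≤ 2 * (32 * (64 + 34 * C) + 32) * E * z ^ 6 := by
    have h1 := KV_le_dbl n β V hz0
    have h2 := mul_le_mul_of_nonneg_left hTz (show 0 ≤ 2 * z by positivity)
    linarith [show 2 * z * ((32 * (64 + 34 * C) + 32) * E * z ^ 5) =
      2 * (32 * (64 + 34 * C) + 32) * E * z ^ 6 by ring]
  -- the lower bound of the linear response, at all `w` in `[u, 4 y]`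
  have hL : ∀ w : ℝ, u ≤ w → w ≤ 4 * y →
      -(2 * 10 ^ 7 * (1 + C) * E * w ^ 5) ≤
        Phn n β w V - Phn n β w 0 - n * V / (2 * β) := by
    intro w hw1 hw2
    have hw0 : 0 < w := by linarith
    have h8 : 0 ≤ E * w ^ 5 := by positivity
    have h9 : 0 ≤ C * (E * w ^ 5) := mul_nonneg hC h8
    have e0 : 2 * 10 ^ 7 * (1 + C) * E * w ^ 5 = 2 * 10 ^ 7 * (E * w ^ 5) +
        2 * 10 ^ 7 * (C * (E * w ^ 5)) := by ring
    rw [e0]
    rcases le_total z w with hzw | hzw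
    · have h1 := Phn_mono n β V hz0 hzw
      have h2 := h0 z w hz0 hzw (by linarith) (by linarith)
      linarith
    · have h1 := Phn_mono n β 0 hw0 hzw
      have h2 := (H9.Phn_sub_bd n β V hw0 hzw).2
      have hK0 : 0 ≤ 2 * (32 * (64 + 34 * C) + 32) * E * z ^ 6 := by positivity
      have h3 : KV n β z V * (1 / w - 1 / z) ≤ 2 * (32 * (64 + 34 * C) + 32) * E * z ^ 6 * (1 / w) := by
        have h4 : 1 / w - 1 / z ≤ 1 / w := by
          have : 0 < 1 / z := by positivity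
          linarith
        have h5 : 0 ≤ 1 / w - 1 / z := by
          have := one_div_le_one_div_of_le hw0 hzw
          linarith
        exact mul_le_mul hKz h4 h5 hK0
      have h6 : 2 * (32 * (64 + 34 * C) + 32) * E * z ^ 6 * (1 / w) ≤
          2 * (32 * (64 + 34 * C) + 32) * E * (4096 * w ^ 5) := by
        have hz4 : z ≤ 4 * w := by linarith
        have h7 : z ^ 6 * (1 / w) ≤ 4096 * w ^ 5 := by
          rw [mul_one_div, div_le_iff₀ hw0]
          calc z ^ 6 ≤ (4 * w) ^ 6 := by gcongr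
            _ = 4096 * w ^ 5 * w := by ring
        have h10 : 0 ≤ 2 * (32 * (64 + 34 * C) + 32) * E := by positivity
        calc _ = 2 * (32 * (64 + 34 * C) + 32) * E * (z ^ 6 * (1 / w)) := by ring
          _ ≤ _ := mul_le_mul_of_nonneg_left h7 h10
      have e1 : 2 * (32 * (64 + 34 * C) + 32) * E * (4096 * w ^ 5) =
          17039360 * (E * w ^ 5) + 8912896 * (C * (E * w ^ 5)) := by ring
      rw [e1] at h6
      linarith
  have hE5 : 0 ≤ E * u ^ 5 := by positivity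
  have hCE5 : 0 ≤ C * (E * u ^ 5) := mul_nonneg hC hE5
  have e0 : 10 ^ 8 * (1 + C) * E * u ^ 5 = 10 ^ 8 * (E * u ^ 5) + 10 ^ 8 * (C * (E * u ^ 5)) := by
    ring
  have hu4 : u ≤ 4 * y := by linarith
  have d1 := hD u hu1 hu4
  have d2 := hL u le_rfl hu4
  have e1 : (64 + 34 * C) * E * u ^ 5 = 64 * (E * u ^ 5) + 34 * (C * (E * u ^ 5)) := by ring
  have e2 : 2 * 10 ^ 7 * (1 + C) * E * u ^ 5 = 2 * 10 ^ 7 * (E * u ^ 5) +
      2 * 10 ^ 7 * (C * (E * u ^ 5)) := by ring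
  rw [e1] at d1
  rw [e2] at d2
  have htc : Phn n β (2 * u) V - Phn n β u V ≤ 10 ^ 8 * (1 + C) * E * u ^ 5 := by
    have d3 := hD (2 * u) (by linarith) (by linarith)
    have d4 := h0 u (2 * u) hu0 (by linarith) (by linarith) (by linarith)
    have e3 : (64 + 34 * C) * E * (2 * u) ^ 5 = 2048 * (E * u ^ 5) + 1088 * (C * (E * u ^ 5)) := by
      ring
    have e4 : E * (2 * u) ^ 5 = 32 * (E * u ^ 5) := by ring
    rw [e3] at d3
    rw [e4] at d4
    rw [e0]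
    linarith
  refine ⟨?_, htc, ?_⟩
  · rw [e0, abs_le]
    constructor <;> linarith
  · have h1 := KV_le_dbl n β V hu0
    have h2 := mul_le_mul_of_nonneg_left htc (show 0 ≤ 2 * u by positivity)
    linarith [show 2 * u * (10 ^ 8 * (1 + C) * E * u ^ 5) = 2 * (10 ^ 8 * (1 + C)) * E * u ^ 6 by
      ring]

/-- **The a priori package from the response at a larger exponent.** -/
theorem ap_of_nm {β : ℝ} (hβ : 1 < β) (hcv : Ccv β) (hK : UpK β) {s0 : ℝ} (hs : 0 < s0) :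
    ∀ᶠ n : ℕ in atTop, ∀ y z W : ℝ, (n : ℝ) ^ (-(1 / 6) : ℝ) ≤ y → y ≤ 1 / 16 → y ≤ z →
      z ≤ 2 * y → 0 < W → W ≤ y ^ 2 → 1 ≤ At β n z W →
      ∀ u : ℝ, y / 2 ≤ u → u ≤ 2 * y → AP β s0 n u W := by
  obtain ⟨C, hC, hc⟩ := contig_four hβ.le
  have hβ0 : 0 < β := by linarith
  filter_upwards [hK (s0 / 2) (by positivity), ev_log (show 0 < s0 / 2 by positivity) 64,
    ev_pow (show 0 < s0 / 2 by positivity) (2 * (10 ^ 8 * (1 + C))), eventually_ge_atTop 1] with n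
    g1 g2 g3 g4 y z W hy hy1 hyz hz hW0 hWy hA u hu1 hu2
  have hn1 : (1 : ℝ) ≤ n := by exact_mod_cast g4
  have hn0 : (0 : ℝ) < n := by linarith
  obtain ⟨E, hE⟩ : ∃ E, E = (n : ℝ) ^ (1 + s0 / 2) := ⟨_, rfl⟩
  have hE0 : 0 < E := by rw [hE]; positivity
  have hl0 : 0 < (n : ℝ) ^ (-(1 / 6) : ℝ) := by positivity
  have hy0 : 0 < y := hl0.trans_le hy
  have hu0 : 0 < u := by linarith
  have e1 : E * ((n : ℝ) ^ (-(1 / 6) : ℝ) / 2) ^ 6 = (n : ℝ) ^ (s0 / 2) / 64 := by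
    rw [div_pow, ← Real.rpow_natCast ((n : ℝ) ^ (-(1 / 6) : ℝ)), ← Real.rpow_mul hn0.le, hE]
    have : (n : ℝ) ^ (1 + s0 / 2) * ((n : ℝ) ^ (-(1 / 6) * ((6 : ℕ) : ℝ))) =
        (n : ℝ) ^ (s0 / 2) := by
      rw [← Real.rpow_add hn0]
      congr 1
      push_cast
      ring
    rw [← mul_div_assoc, this]
    norm_num
  have hnE : (n : ℝ) ≤ E := by
    rw [hE]
    calc (n : ℝ) = (n : ℝ) ^ (1 : ℝ) := (Real.rpow_one _).symm
      _ ≤ _ := Real.rpow_le_rpow_of_exponent_le hn1 (by linarith)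
  have hEs : 2 * (10 ^ 8 * (1 + C)) * E ≤ (n : ℝ) ^ (1 + s0) := by
    have e2 : (n : ℝ) ^ (1 + s0) = (n : ℝ) ^ (s0 / 2) * E := by
      rw [hE, ← Real.rpow_add hn0]
      congr 1
      ring
    rw [e2]
    gcongr
  have hEs' : 10 ^ 8 * (1 + C) * E ≤ (n : ℝ) ^ (1 + s0) := by
    have : 0 ≤ 10 ^ 8 * (1 + C) * E := by positivity
    linarith
  have key : ∀ V : ℝ, 0 ≤ V → V ≤ W → _ := fun V hV0 hVW =>
    ap_core hβ0 g4 hC hE0.le hnE (hcv n g4) (hc n g4) hl0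
      (fun x hx hx1 => by rw [hE]; exact g1 x hx hx1)
      (by rw [e1, le_div_iff₀ (by norm_num)]; linarith) hy hy1 hyz hz hW0 hWy hA hu1 hu2 hV0 hVW
  refine ⟨fun V h1 h2 => (key V h1 h2).1.trans ?_, fun V h1 h2 => (key V h1 h2).2.1.trans ?_,
    fun V h1 h2 => (key V h1 h2).2.2.trans ?_⟩
  · exact mul_le_mul_of_nonneg_right hEs' (by positivity)
  · exact mul_le_mul_of_nonneg_right hEs' (by positivity)
  · exact mul_le_mul_of_nonneg_right hEs (by positivity)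

/-- The a priori package for small fields. -/
theorem ap_triv {β : ℝ} (hβ : 1 < β) (hK : UpK β) {s0 A : ℝ} (hs : 0 < s0) (hA : 0 ≤ A) :
    ∀ᶠ n : ℕ in atTop, ∀ y W : ℝ, (n : ℝ) ^ (-(1 / 6) : ℝ) ≤ y → y ≤ 1 / 2 →
      W ≤ A * y ^ 5 → AP β s0 n y W := by
  have hβ0 : 0 < β := by linarith
  filter_upwards [hK (s0 / 2) (by positivity), ev_pow hs (A + 1),
    ev_pow (show 0 < s0 / 2 by positivity) (2 * (32 + A / 2 + 1)), eventually_ge_atTop 1] with n
    g1 g2 g3 g4 y W hy hy1 hWy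
  have hn1 : (1 : ℝ) ≤ n := by exact_mod_cast g4
  have hn0 : (0 : ℝ) < n := by linarith
  have hl0 : 0 < (n : ℝ) ^ (-(1 / 6) : ℝ) := by positivity
  have hy0 : 0 < y := hl0.trans_le hy
  obtain ⟨E, hE⟩ : ∃ E, E = (n : ℝ) ^ (1 + s0 / 2) := ⟨_, rfl⟩
  have hE0 : 0 < E := by rw [hE]; positivity
  have hnE : (n : ℝ) ≤ E := by
    rw [hE]
    calc (n : ℝ) = (n : ℝ) ^ (1 : ℝ) := (Real.rpow_one _).symm
      _ ≤ _ := Real.rpow_le_rpow_of_exponent_le hn1 (by linarith)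
  have hEs : 2 * (32 + A / 2 + 1) * E ≤ (n : ℝ) ^ (1 + s0) := by
    have e2 : (n : ℝ) ^ (1 + s0) = (n : ℝ) ^ (s0 / 2) * E := by
      rw [hE, ← Real.rpow_add hn0]
      congr 1
      ring
    rw [e2]
    gcongr
  have htc : ∀ V : ℝ, 0 ≤ V → V ≤ W →
      Phn n β (2 * y) V - Phn n β y V ≤ (32 + A / 2) * E * y ^ 5 := by
    intro V h1 h2
    have k1 := H9.Phn_le n β (show 0 < 2 * y by positivity) (by linarith) h1
    have k2 := H9.Phn_zero_le n β V hy0.le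
    have k3 := H9.Phn_kap β n hy0 (show 0 < 2 * y by positivity)
    have k4 := g1 (2 * y) (by linarith) (by linarith)
    rw [← hE] at k4
    have k5 : kap β n (2 * y) / (2 * y) ≤ 32 * E * y ^ 5 := by
      rw [div_le_iff₀ (by positivity)]
      linarith [show 32 * E * y ^ 5 * (2 * y) = E * (2 * y) ^ 6 by ring]
    have k6 : 0 ≤ kap β n y / y := div_nonneg (kap_nonneg β n y) hy0.le
    have k7 : n * V / 2 ≤ A / 2 * E * y ^ 5 := by
      have h3 : n * V ≤ E * (A * y ^ 5) := mul_le_mul hnE (h2.trans hWy) h1 hE0.le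
      linarith [show A / 2 * E * y ^ 5 = E * (A * y ^ 5) / 2 by ring]
    linarith [show (32 + A / 2) * E * y ^ 5 = 32 * E * y ^ 5 + A / 2 * E * y ^ 5 by ring]
  refine ⟨fun V h1 h2 => ?_, fun V h1 h2 => (htc V h1 h2).trans ?_, fun V h1 h2 => ?_⟩
  · have k1 := H9.Phn_le n β hy0 (by linarith) h1
    have k2 := H9.Phn_zero_le n β V hy0.le
    have k3 : n * V ≤ (n : ℝ) ^ (1 + s0) * y ^ 5 := by
      have h3 : n * V ≤ n * (A * y ^ 5) := mul_le_mul_of_nonneg_left (h2.trans hWy) hn0.le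
      have h4 : A * n ≤ (n : ℝ) ^ (1 + s0) := by
        rw [Real.rpow_add hn0, Real.rpow_one]
        nlinarith
      have h5 := mul_le_mul_of_nonneg_right h4 (show 0 ≤ y ^ 5 by positivity)
      linarith [show n * (A * y ^ 5) = A * n * y ^ 5 by ring]
    have k4 : n * V / (2 * β) ≤ n * V / 2 := by
      apply div_le_div_of_nonneg_left (by positivity) (by norm_num)
      linarith
    have k5 : 0 ≤ n * V / (2 * β) := by positivity
    have k6 : n * V / 2 ≤ n * V := by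
      have : 0 ≤ (n : ℝ) * V := by positivity
      linarith
    rw [abs_le]
    constructor <;> linarith
  · refine mul_le_mul_of_nonneg_right ?_ (by positivity)
    have : 0 ≤ (32 + A / 2 + 1) * E + E := by positivity
    linarith
  · have k1 := KV_le_dbl n β V hy0
    have k2 := mul_le_mul_of_nonneg_left (htc V h1 h2) (show 0 ≤ 2 * y by positivity)
    have k3 := mul_le_mul_of_nonneg_right hEs (show 0 ≤ y ^ 6 by positivity)
    have k4 : 0 ≤ E * y ^ 6 := by positivity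
    linarith [show 2 * y * ((32 + A / 2) * E * y ^ 5) + 2 * (E * y ^ 6) =
      2 * (32 + A / 2 + 1) * E * y ^ 6 by ring]

/-- Smaller fields. -/
lemma AP.mono {β s0 : ℝ} {n : ℕ} {y W W' : ℝ} (h : AP β s0 n y W) (hW : W' ≤ W) :
    AP β s0 n y W' :=
  ⟨fun V h1 h2 => h.dd V h1 (h2.trans hW), fun V h1 h2 => h.tc V h1 (h2.trans hW),
    fun V h1 h2 => h.kk V h1 (h2.trans hW)⟩

/-- Upper bound of a tangent. -/
lemma AP.al_le {β s0 : ℝ} (hβ : 0 < β) {n : ℕ} (hn : 1 ≤ n) {y W : ℝ} (h : AP β s0 n y W)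
    {V a : ℝ} (hV0 : 0 < V) (hVW : V ≤ W)
    (ht : ∀ w : ℝ, 0 ≤ w → Phn n β y w ≤ Phn n β y V + n / (2 * β) * (1 + a) * (w - V)) :
    a ≤ 2 * β * ((n : ℝ) ^ s0 * y ^ 5 / V) := by
  have hn0 : (0 : ℝ) < n := by exact_mod_cast hn
  have h1 := (abs_le.1 (h.dd V hV0.le hVW)).2
  have h2 := ht 0 le_rfl
  rw [Real.rpow_add hn0, Real.rpow_one] at h1
  have h3 : n / (2 * β) * (a * V) ≤ n * (n : ℝ) ^ s0 * y ^ 5 := by
    have e : n / (2 * β) * (1 + a) * (0 - V) = -(n * V / (2 * β)) - n / (2 * β) * (a * V) := by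
      ring
    rw [e] at h2
    linarith
  have h4 : a * V ≤ 2 * β * ((n : ℝ) ^ s0 * y ^ 5) := by
    have h5 := mul_le_mul_of_nonneg_left h3 (show 0 ≤ 2 * β / n by positivity)
    have e1 : 2 * β / n * (n / (2 * β) * (a * V)) = a * V := by field_simp
    have e2 : 2 * β / n * (n * (n : ℝ) ^ s0 * y ^ 5) = 2 * β * ((n : ℝ) ^ s0 * y ^ 5) := by
      field_simp
    rw [e1, e2] at h5
    exact h5
  calc a = a * V / V := by field_simp
    _ ≤ 2 * β * ((n : ℝ) ^ s0 * y ^ 5) / V := by gcongr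
    _ = _ := by ring

/-- Lower bound of a tangent. -/
lemma AP.al_ge {β s0 : ℝ} (hβ : 0 < β) {n : ℕ} (hn : 1 ≤ n) {y W : ℝ} (h : AP β s0 n y W)
    {V a : ℝ} (hV0 : 0 < V) (hVW : 2 * V ≤ W)
    (ht : ∀ w : ℝ, 0 ≤ w → Phn n β y w ≤ Phn n β y V + n / (2 * β) * (1 + a) * (w - V)) :
    -(4 * β * ((n : ℝ) ^ s0 * y ^ 5 / V)) ≤ a := by
  have hn0 : (0 : ℝ) < n := by exact_mod_cast hn
  have h1 := (abs_le.1 (h.dd V hV0.le (by linarith))).2
  have h1' := (abs_le.1 (h.dd (2 * V) (by linarith) hVW)).1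
  have h2 := ht (2 * V) (by linarith)
  rw [Real.rpow_add hn0, Real.rpow_one] at h1 h1'
  have h3 : -(2 * (n * (n : ℝ) ^ s0 * y ^ 5)) ≤ n / (2 * β) * (a * V) := by
    have e : n / (2 * β) * (1 + a) * (2 * V - V) = n * V / (2 * β) + n / (2 * β) * (a * V) := by
      ring
    have e' : (n : ℝ) * (2 * V) / (2 * β) = n * V / (2 * β) + n * V / (2 * β) := by ring
    rw [e] at h2
    rw [e'] at h1'
    linarith
  have h4 : -(4 * β * ((n : ℝ) ^ s0 * y ^ 5)) ≤ a * V := by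
    have h5 := mul_le_mul_of_nonneg_left h3 (show 0 ≤ 2 * β / n by positivity)
    have e1 : 2 * β / n * (n / (2 * β) * (a * V)) = a * V := by field_simp
    have e2 : 2 * β / n * (-(2 * (n * (n : ℝ) ^ s0 * y ^ 5))) =
        -(4 * β * ((n : ℝ) ^ s0 * y ^ 5)) := by
      field_simp
      ring
    rw [e1, e2] at h5
    exact h5
  calc -(4 * β * ((n : ℝ) ^ s0 * y ^ 5 / V)) = -(4 * β * ((n : ℝ) ^ s0 * y ^ 5)) / V := by ring
    _ ≤ a * V / V := by gcongr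
    _ = a := by field_simp

end Vale.Agent.P146.H178
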