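import Mathlib

set_option linter.all false

/-!
# P146: from the response to the exponential moments

`κ n x` = `log E exp (x (F - E F))`, `At n x v` = the secant response to a field of the variance `v`.
Contiguity and a lower bound `At n x (n^(-d) x³) - 1 ≥ n^(-s) x²` for `n^(-1/6+e) ≤ x ≤ n^(-b₁)`,
with the lower law for `x ≥ n^(-b+e)`, `b₁ < b`, give the lower law for `x ≥ n^(-1/6+e)`.
-/

open Filter Topology

namespace Vale.Agent.P146.H178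

/-- The contiguity bound of the secant response. -/
def Contig (β : ℝ) (κ : ℕ → ℝ → ℝ) (At : ℕ → ℝ → ℝ → ℝ) : Prop := ∃ C : ℝ, 0 ≤ C ∧
  ∀ n : ℕ, 1 ≤ n → ∀ x v : ℝ, 0 < x → x ≤ 1 / 4 → 0 < v → v ≤ 1 →
    x * n * v / (4 * β) * (At n x v - 1) ≤ κ n (2 * x) / 2 - κ n x + C * (1 + Real.log n) +
      C * (n * (x * v) ^ 2)

/-- The lower bound of the secant response on `n^(-1/6+e) ≤ x ≤ n^(-b₁)`. -/
def Resp (b₁ : ℝ) (At : ℕ → ℝ → ℝ → ℝ) : Prop := ∀ e : ℝ, 0 < e → ∃ s d : ℝ,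
  0 < s ∧ 0 < d ∧ s + d ≤ e ∧ ∀ᶠ n : ℕ in atTop, ∀ x : ℝ,
    (n : ℝ) ^ (-(1 / 6) + e) ≤ x → x ≤ (n : ℝ) ^ (-b₁) →
      (n : ℝ) ^ (-s) * x ^ 2 ≤ At n x ((n : ℝ) ^ (-d) * x ^ 3) - 1

/-- The lower bound of the exponential moments for `n ^ (-b + e) ≤ x ≤ δ`. -/
def LobK (κ : ℕ → ℝ → ℝ) (b : ℝ) : Prop := ∀ e : ℝ, 0 < e → ∃ δ : ℝ, 0 < δ ∧
  ∀ᶠ n : ℕ in atTop, ∀ x : ℝ, (n : ℝ) ^ (-b + e) ≤ x → x ≤ δ → (n : ℝ) ^ (1 - e) * x ^ 6 ≤ κ n x

lemma ev_pow {u : ℝ} (hu : 0 < u) (C : ℝ) : ∀ᶠ n : ℕ in atTop, C ≤ (n : ℝ) ^ u :=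
  ((tendsto_rpow_atTop hu).comp (tendsto_natCast_atTop_atTop (R := ℝ))).eventually_ge_atTop C

lemma ev_log {u : ℝ} (hu : 0 < u) (C : ℝ) : ∀ᶠ n : ℕ in atTop,
    C * (1 + Real.log n) ≤ (n : ℝ) ^ u := by
  have h1 := ev_pow (show 0 < u / 2 by positivity) (|C| * (1 + 2 / u))
  filter_upwards [h1, eventually_ge_atTop 1] with n h2 hn
  have hn1 : (1 : ℝ) ≤ n := by exact_mod_cast hn
  have hn0 : (0 : ℝ) < n := by linarith
  have hl : Real.log n ≤ (n : ℝ) ^ (u / 2) / (u / 2) := Real.log_le_rpow_div hn0.le (by positivity)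
  have hl0 : 0 ≤ Real.log n := Real.log_nonneg hn1
  have hp : (1 : ℝ) ≤ (n : ℝ) ^ (u / 2) := Real.one_le_rpow hn1 (by positivity)
  have e1 : (n : ℝ) ^ u = (n : ℝ) ^ (u / 2) * (n : ℝ) ^ (u / 2) := by
    rw [← Real.rpow_add hn0]; congr 1; ring
  have h3 : 1 + Real.log n ≤ (1 + 2 / u) * (n : ℝ) ^ (u / 2) := by
    have : (n : ℝ) ^ (u / 2) / (u / 2) = 2 / u * (n : ℝ) ^ (u / 2) := by
      field_simp
    rw [this] at hl
    nlinarith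
  calc C * (1 + Real.log n) ≤ |C| * (1 + Real.log n) :=
        mul_le_mul_of_nonneg_right (le_abs_self C) (by linarith)
    _ ≤ |C| * ((1 + 2 / u) * (n : ℝ) ^ (u / 2)) := mul_le_mul_of_nonneg_left h3 (abs_nonneg C)
    _ = |C| * (1 + 2 / u) * (n : ℝ) ^ (u / 2) := by ring
    _ ≤ (n : ℝ) ^ (u / 2) * (n : ℝ) ^ (u / 2) := mul_le_mul_of_nonneg_right h2 (by positivity)
    _ = _ := e1.symm

lemma quad_term {N y β C b₁ d s : ℝ} (hN : 1 ≤ N) (hβ : 0 < β) (hy : 0 ≤ y)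
    (hy2 : y ≤ N ^ (-b₁)) (hs : -d + s ≤ 0 ∨ -d + s ≤ b₁) (hC : 8 * β * C ≤ N ^ b₁)
    (hb₁ : 0 < b₁) :
    C * (N * (y * (N ^ (-d) * y ^ 3)) ^ 2) ≤ N ^ (1 - d - s) * y ^ 6 / (8 * β) := by
  have hN0 : 0 < N := by linarith
  have e3 : N ^ (1 - d - s) = N * N ^ (-d) * N ^ (-s) := by
    rw [show (1 - d - s : ℝ) = 1 + (-d) + (-s) by ring, Real.rpow_add hN0,
      Real.rpow_add hN0, Real.rpow_one]
  have e4 : N ^ (-d + s) = N ^ (-d) * N ^ s := Real.rpow_add hN0 _ _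
  have e5 : N ^ (-s) * N ^ s = 1 := by
    rw [← Real.rpow_add hN0]
    simp
  have h21 : C * (N * (y * (N ^ (-d) * y ^ 3)) ^ 2) =
      N ^ (1 - d - s) * y ^ 6 * (C * (N ^ (-d + s) * y ^ 2)) := by
    rw [e3, e4]
    linear_combination (-(C * N * (N ^ (-d)) ^ 2 * y ^ 8)) * e5
  have h23 : N ^ (-d + s) * y ^ 2 * N ^ b₁ ≤ 1 := by
    calc N ^ (-d + s) * y ^ 2 * N ^ b₁
        ≤ N ^ (-d + s) * (N ^ (-b₁)) ^ 2 * N ^ b₁ := by gcongr
      _ = N ^ (-d + s - b₁) := by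
        rw [← Real.rpow_natCast, ← Real.rpow_mul hN0.le, ← Real.rpow_add hN0,
          ← Real.rpow_add hN0]
        congr 1
        push_cast
        ring
      _ ≤ 1 := Real.rpow_le_one_of_one_le_of_nonpos hN (by rcases hs with h | h <;> linarith)
  have h24 : 0 ≤ N ^ (-d + s) * y ^ 2 := by positivity
  have h25 : 8 * β * C * (N ^ (-d + s) * y ^ 2) ≤ 1 := by
    have := mul_le_mul_of_nonneg_right hC h24
    linarith
  have h26 : 0 ≤ N ^ (1 - d - s) * y ^ 6 := by positivity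
  rw [h21, le_div_iff₀ (by positivity)]
  have h27 := mul_le_mul_of_nonneg_left h25 h26
  linarith

/-- **The lower law for `x ≥ n^(-1/6+e)`.** -/
theorem lobK_of_resp {β b b₁ : ℝ} (hβ : 0 < β) (hb₁ : b₁ < b) (hb₁0 : 0 < b₁)
    {κ : ℕ → ℝ → ℝ} {At : ℕ → ℝ → ℝ → ℝ} (h0 : ∀ n x, 0 ≤ κ n x) (hC : Contig β κ At)
    (hR : Resp b₁ At) (hL : LobK κ b) : LobK κ (1 / 6) := by
  intro e he
  obtain ⟨e1, he1⟩ : ∃ e1, e1 = min e ((b - b₁) / 2) := ⟨_, rfl⟩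
  have he1e : e1 ≤ e := by rw [he1]; exact min_le_left _ _
  have he1b : e1 ≤ (b - b₁) / 2 := by rw [he1]; exact min_le_right _ _
  have he10 : 0 < e1 := by rw [he1]; exact lt_min he (by linarith)
  obtain ⟨δ, hδ, hLn⟩ := hL e1 he10
  obtain ⟨C, hC0, hCn⟩ := hC
  obtain ⟨s, d, hs, hd, hsd0, hRn⟩ := hR (min (e / 2) b₁) (lt_min (by positivity) hb₁0)
  have hsd : s + d ≤ e / 2 := hsd0.trans (min_le_left _ _)
  have hsd1 : s + d ≤ b₁ := hsd0.trans (min_le_right _ _)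
  refine ⟨δ, hδ, ?_⟩
  have ev2 : ∀ᶠ n : ℕ in atTop, (n : ℝ) ^ (-b₁) ≤ 1 / 4 :=
    ((tendsto_rpow_neg_atTop hb₁0).comp
      (tendsto_natCast_atTop_atTop (R := ℝ))).eventually_le_const (by norm_num)
  filter_upwards [hLn, hRn, ev2, ev_pow (show 0 < e / 2 by positivity) (max 2 (512 * β)),
    ev_log (show 0 < 5 * e by positivity) (2 * C), eventually_ge_atTop 1,
    ev_pow hb₁0 (8 * β * C)]
    with n g1 g2 g3 g4 g5 g6 g7 x hx hxδ
  have hn1 : (1 : ℝ) ≤ n := by exact_mod_cast g6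
  have hn0 : (0 : ℝ) < n := by linarith
  have hx0 : 0 < x := lt_of_lt_of_le (Real.rpow_pos_of_pos hn0 _) hx
  rcases le_total ((n : ℝ) ^ (-b₁)) x with hc | hc
  · -- the known range
    have h1 : (n : ℝ) ^ (-b + e1) ≤ x :=
      (Real.rpow_le_rpow_of_exponent_le hn1 (by linarith)).trans hc
    refine le_trans ?_ (g1 x h1 hxδ)
    exact mul_le_mul_of_nonneg_right (Real.rpow_le_rpow_of_exponent_le hn1 (by linarith))
      (by positivity)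
  · -- the new range
    obtain ⟨y, hy⟩ : ∃ y, y = x / 2 := ⟨_, rfl⟩
    have hxy : x = 2 * y := by rw [hy]; ring
    have hy0 : 0 < y := by rw [hy]; positivity
    have hy1' : (n : ℝ) ^ (-(1 / 6) + e / 2) ≤ y := by
      have h2 : (2 : ℝ) ≤ (n : ℝ) ^ (e / 2) := (le_max_left _ _).trans g4
      have h3 : (n : ℝ) ^ (-(1 / 6) + e) = (n : ℝ) ^ (-(1 / 6) + e / 2) * (n : ℝ) ^ (e / 2) := by
        rw [← Real.rpow_add hn0]; congr 1; ring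
      have h4 : 0 < (n : ℝ) ^ (-(1 / 6) + e / 2) := Real.rpow_pos_of_pos hn0 _
      rw [h3] at hx
      rw [hy, le_div_iff₀ (by norm_num)]
      nlinarith
    have hy1 : (n : ℝ) ^ (-(1 / 6) + min (e / 2) b₁) ≤ y :=
      (Real.rpow_le_rpow_of_exponent_le hn1 (by linarith [min_le_left (e / 2) b₁])).trans hy1'
    have hy2 : y ≤ (n : ℝ) ^ (-b₁) := by rw [hy]; linarith
    have hy3 : y ≤ 1 / 4 := hy2.trans g3
    have hv0 : 0 < (n : ℝ) ^ (-d) * y ^ 3 := by positivity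
    have hv1 : (n : ℝ) ^ (-d) * y ^ 3 ≤ 1 := by
      have h2 : (n : ℝ) ^ (-d) ≤ 1 := Real.rpow_le_one_of_one_le_of_nonpos hn1 (by linarith)
      have h3 : y ^ 3 ≤ 1 := pow_le_one₀ hy0.le (by linarith)
      calc (n : ℝ) ^ (-d) * y ^ 3 ≤ 1 * 1 := by gcongr
        _ = 1 := by norm_num
    have h5 := hCn n g6 y _ hy0 hy3 hv0 hv1
    have h6 := g2 y hy1 hy2
    have h7 : y * n * ((n : ℝ) ^ (-d) * y ^ 3) / (4 * β) * ((n : ℝ) ^ (-s) * y ^ 2) ≤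
        y * n * ((n : ℝ) ^ (-d) * y ^ 3) / (4 * β) *
          (At n y ((n : ℝ) ^ (-d) * y ^ 3) - 1) :=
      mul_le_mul_of_nonneg_left h6 (by positivity)
    have e1' : y * n * ((n : ℝ) ^ (-d) * y ^ 3) / (4 * β) * ((n : ℝ) ^ (-s) * y ^ 2) =
        (n : ℝ) ^ (1 - d - s) * y ^ 6 / (4 * β) := by
      have : (n : ℝ) ^ (1 - d - s) = n * (n : ℝ) ^ (-d) * (n : ℝ) ^ (-s) := by
        rw [show (1 - d - s : ℝ) = 1 + (-d) + (-s) by ring, Real.rpow_add hn0,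
          Real.rpow_add hn0, Real.rpow_one]
      rw [this]; ring
    rw [e1'] at h7
    have h8 : (n : ℝ) ^ (1 - e / 2) * y ^ 6 / (4 * β) ≤ (n : ℝ) ^ (1 - d - s) * y ^ 6 / (4 * β) := by
      have : (n : ℝ) ^ (1 - e / 2) ≤ (n : ℝ) ^ (1 - d - s) :=
        Real.rpow_le_rpow_of_exponent_le hn1 (by linarith)
      gcongr
    have h9 := h0 n y
    have h20 := quad_term hn1 hβ hy0.le hy2 (show -d + s ≤ 0 ∨ -d + s ≤ b₁ from
      Or.inr (by linarith)) g7 hb₁0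
    -- `κ (2y) ≥ n^(1-e/2) y^6/(4β) - 2C(1 + log n)`
    have h10 : (n : ℝ) ^ (1 - e / 2) * y ^ 6 / (4 * β) - 2 * C * (1 + Real.log n) ≤ κ n x := by
      rw [hxy]
      have e2 : (n : ℝ) ^ (1 - d - s) * y ^ 6 / (4 * β) =
          2 * ((n : ℝ) ^ (1 - d - s) * y ^ 6 / (8 * β)) := by ring
      have e3 : (n : ℝ) ^ (1 - e / 2) * y ^ 6 / (4 * β) ≤
          2 * ((n : ℝ) ^ (1 - d - s) * y ^ 6 / (8 * β)) := by rw [← e2]; exact h8
      rw [e2] at h7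
      linarith
    refine le_trans ?_ h10
    -- `x^6 = 64 y^6`
    have h11 : (n : ℝ) ^ (1 - e) * x ^ 6 = (n : ℝ) ^ (1 - e) * (64 * y ^ 6) := by
      rw [hxy]; ring
    have h12 : (n : ℝ) ^ (5 * e) ≤ (n : ℝ) ^ (1 - e) * x ^ 6 := by
      have h13 : ((n : ℝ) ^ (-(1 / 6) + e)) ^ 6 ≤ x ^ 6 :=
        pow_le_pow_left₀ (by positivity) hx 6
      have h14 : (n : ℝ) ^ (1 - e) * ((n : ℝ) ^ (-(1 / 6) + e)) ^ 6 = (n : ℝ) ^ (5 * e) := by
        rw [← Real.rpow_natCast, ← Real.rpow_mul hn0.le, ← Real.rpow_add hn0]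
        congr 1; push_cast; ring
      rw [← h14]
      exact mul_le_mul_of_nonneg_left h13 (by positivity)
    have h15 : 2 * ((n : ℝ) ^ (1 - e) * (64 * y ^ 6)) ≤ (n : ℝ) ^ (1 - e / 2) * y ^ 6 / (4 * β) := by
      have h16 : 512 * β ≤ (n : ℝ) ^ (e / 2) := (le_max_right _ _).trans g4
      have h17 : (n : ℝ) ^ (1 - e / 2) = (n : ℝ) ^ (1 - e) * (n : ℝ) ^ (e / 2) := by
        rw [← Real.rpow_add hn0]; congr 1; ring
      rw [h17, le_div_iff₀ (by positivity)]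
      have h18 : 0 < (n : ℝ) ^ (1 - e) * y ^ 6 := by positivity
      nlinarith
    rw [← h11] at h15
    linarith

end Vale.Agent.P146.H178
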