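import Vale.Agent.P146.H122.FlowR

/-!
# P146: the flow in the exponent, with the history of the barrier

As `H122.flow`, `H122.resp_of_kdiff`; in the step at `x` the barrier is known at all larger
exponents.  The history gives the response over `(0, 4 v)` at an exponent in `[x, 2 x]`.
-/

open Set Filter Topology

namespace Vale.Agent.P146.H178

open Vale.Agent.P146.H122

/-- **The flow with history.** -/
theorem flowH {Φ K : ℝ → ℝ → ℝ} {L L' V w : ℝ → ℝ} {c x0 y1 ρ η : ℝ} (hx0 : 0 < x0) (hρ : 1 < ρ)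
    (hη : 0 < η) (hc : 0 < c)
    (cv : ∀ x ∈ Icc x0 y1, ConcaveOn ℝ (Ici 0) (Φ x))
    (dx : ∀ x ∈ Icc x0 y1, ∀ v, 0 ≤ v → HasDerivAt (fun y => Φ y v) (K x v / x ^ 2) x)
    (hL : ∀ x ∈ Icc x0 y1, HasDerivAt L (L' x) x) (hL0 : ∀ x ∈ Icc x0 y1, 0 < L x)
    (hV : MonotoneOn V (Icc x0 y1)) (hw : MonotoneOn w (Icc x0 y1))
    (hw0 : ∀ x ∈ Icc x0 y1, 0 ≤ w x) (hwV : ∀ x ∈ Icc x0 y1, w x < V x)
    (hE : ∀ x ∈ Icc x0 y1, ∀ y ∈ Icc x0 y1, x ≤ y → y ≤ ρ * x →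
      (∀ z ∈ Icc y y1, 1 + L z ≤ c * sec (Φ z) (w z) (V z)) →
      1 + (1 - η) * L x ≤ c * sec (Φ x) (w y) (V y) → c * sec (Φ x) (w y) (V y) ≤ 1 + L x →
      c * ((K x (V y) - K x (w y)) / (V y - w y)) / x ^ 2 ≤ L' x)
    (start : 1 + L y1 ≤ c * sec (Φ y1) (w y1) (V y1)) :
    ∀ x ∈ Icc x0 y1, 1 + L x ≤ c * sec (Φ x) (w x) (V x) := by
  -- one block
  have block : ∀ x ∈ Icc x0 y1, ∀ y ∈ Icc x0 y1, x ≤ y → y ≤ ρ * x →
      (∀ z ∈ Icc y y1, 1 + L z ≤ c * sec (Φ z) (w z) (V z)) →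
      1 + L x ≤ c * sec (Φ x) (w x) (V x) := by
    intro x hx y hy hxy hyx hist
    have hs := hist y ⟨le_rfl, hy.2⟩
    have hsub : Icc x y ⊆ Icc x0 y1 := Icc_subset_Icc hx.1 hy.2
    have hwVy := hwV y hy
    have hwy := hw0 y hy
    have h1 := barrier (α := fun z => c * sec (Φ z) (w y) (V y) - 1) (L := L)
      (α' := fun z => c * ((K z (V y) - K z (w y)) / (V y - w y)) / z ^ 2) (L' := L') hxy hη
      ?_ (fun z hz => hL z (hsub hz)) (fun z hz => hL0 z (hsub hz)) ?_ (by linarith)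
    · have h2 : sec (Φ x) (w y) (V y) ≤ sec (Φ x) (w x) (V x) :=
        sec_anti (cv x hx) (hw0 x hx) (hw hx hy hxy) (hV hx hy hxy) (hwV x hx) hwVy
      have h3 := mul_le_mul_of_nonneg_left h2 hc.le
      linarith
    · intro z hz
      have d1 := dx z (hsub hz) (V y) (hwy.trans hwVy.le)
      have d2 := dx z (hsub hz) (w y) hwy
      have d3 := ((d1.sub d2).div_const (V y - w y)).const_mul c
      have d4 := d3.sub_const 1
      have e : c * ((K z (V y) / z ^ 2 - K z (w y) / z ^ 2) / (V y - w y)) =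
          c * ((K z (V y) - K z (w y)) / (V y - w y)) / z ^ 2 := by ring
      rw [e] at d4
      exact d4
    · intro z hz h1 h2
      have hzy : y ≤ ρ * z := hyx.trans (mul_le_mul_of_nonneg_left hz.1 (by linarith))
      exact hE z (hsub hz) y hy hz.2 hzy hist (by linarith) (by linarith)
  -- induction on the number of blocks
  have hρ0 : 0 < ρ := by linarith
  have key : ∀ k : ℕ, ∀ x ∈ Icc x0 y1, y1 ≤ ρ ^ k * x → 1 + L x ≤ c * sec (Φ x) (w x) (V x) := by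
    intro k
    induction k with
    | zero =>
      intro x hx h
      rw [pow_zero, one_mul] at h
      have : x = y1 := le_antisymm hx.2 h
      rw [this]
      exact start
    | succ k ih =>
      intro x hx h
      obtain ⟨y, hy⟩ : ∃ y, y = min (ρ * x) y1 := ⟨_, rfl⟩
      have hxp : 0 < x := lt_of_lt_of_le hx0 hx.1
      have hyx : y ≤ ρ * x := by rw [hy]; exact min_le_left _ _
      have hxy : x ≤ y := by
        rw [hy]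
        exact le_min (by nlinarith) hx.2
      have hyI : y ∈ Icc x0 y1 := ⟨hx.1.trans hxy, by rw [hy]; exact min_le_right _ _⟩
      have hyk : y1 ≤ ρ ^ k * y := by
        rw [hy]
        rcases le_total (ρ * x) y1 with h1 | h1
        · rw [min_eq_left h1]
          calc y1 ≤ ρ ^ (k + 1) * x := h
            _ = ρ ^ k * (ρ * x) := by ring
        · rw [min_eq_right h1]
          have h2 : 1 ≤ ρ ^ k := one_le_pow₀ hρ.le
          have h3 : 0 ≤ y1 := hxp.le.trans hx.2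
          nlinarith
      refine block x hx y hyI hxy hyx fun z hz => ih z ⟨hyI.1.trans hz.1, hz.2⟩ ?_
      exact hyk.trans (mul_le_mul_of_nonneg_left hz.1 (by positivity))
  intro x hx
  have hxp : 0 < x := lt_of_lt_of_le hx0 hx.1
  obtain ⟨k, hk⟩ := pow_unbounded_of_one_lt (y1 / x) hρ
  exact key k x hx (by rw [div_lt_iff₀ hxp] at hk; exact hk.le)

/-- **The flow with history and with a power as lower bound.** -/
theorem flow_powH {Φ K : ℝ → ℝ → ℝ} {V w : ℝ → ℝ} {c x0 y1 ρ η ℓ C : ℝ} (hx0 : 0 < x0)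
    (hρ : 1 < ρ) (hη : 0 < η) (hc : 0 < c) (hℓ : 0 < ℓ)
    (cv : ∀ x ∈ Icc x0 y1, ConcaveOn ℝ (Ici 0) (Φ x))
    (dx : ∀ x ∈ Icc x0 y1, ∀ v, 0 ≤ v → HasDerivAt (fun y => Φ y v) (K x v / x ^ 2) x)
    (hV : MonotoneOn V (Icc x0 y1)) (hw : MonotoneOn w (Icc x0 y1))
    (hw0 : ∀ x ∈ Icc x0 y1, 0 ≤ w x) (hwV : ∀ x ∈ Icc x0 y1, w x < V x)
    (hE : ∀ x ∈ Icc x0 y1, ∀ y ∈ Icc x0 y1, x ≤ y → y ≤ ρ * x →
      (∀ z ∈ Icc y y1, 1 + ℓ * z ^ C ≤ c * sec (Φ z) (w z) (V z)) →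
      1 + (1 - η) * (ℓ * x ^ C) ≤ c * sec (Φ x) (w y) (V y) →
      c * sec (Φ x) (w y) (V y) ≤ 1 + ℓ * x ^ C →
      c * (K x (V y) - K x (w y)) ≤ C * (ℓ * x ^ C) * x * (V y - w y))
    (start : 1 + ℓ * y1 ^ C ≤ c * sec (Φ y1) (w y1) (V y1)) :
    ∀ x ∈ Icc x0 y1, 1 + ℓ * x ^ C ≤ c * sec (Φ x) (w x) (V x) := by
  refine flowH (L := fun x => ℓ * x ^ C) (L' := fun x => ℓ * (C * x ^ (C - 1))) hx0 hρ hη hc cv dx
    (fun x hx => ?_) (fun x hx => ?_) hV hw hw0 hwV (fun x hx y hy h1 h2 h0 h3 h4 => ?_) start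
  · have hxp : x ≠ 0 := (lt_of_lt_of_le hx0 hx.1).ne'
    exact (Real.hasDerivAt_rpow_const (Or.inl hxp)).const_mul ℓ
  · have hxp : 0 < x := lt_of_lt_of_le hx0 hx.1
    positivity
  · have hxp : 0 < x := lt_of_lt_of_le hx0 hx.1
    have h5 := hE x hx y hy h1 h2 h0 h3 h4
    have h6 : 0 < V y - w y := by linarith [hwV y hy]
    rw [div_le_iff₀ (by positivity), mul_div_assoc', div_le_iff₀ h6]
    refine h5.trans (le_of_eq ?_)
    have e : x ^ (C - 1) * x ^ 2 = x ^ C * x := by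
      rw [Real.rpow_sub_one hxp.ne']
      field_simp
    calc C * (ℓ * x ^ C) * x * (V y - w y) = C * ℓ * (x ^ C * x) * (V y - w y) := by ring
      _ = C * ℓ * (x ^ (C - 1) * x ^ 2) * (V y - w y) := by rw [e]
      _ = _ := by ring

/-- The anchor: the response over `(v, 2 v)`, `v = κ n^(-d) y₃³`, at some `y₃` of the size
`n^(-b₁)`, and the response over `(0, W)` above `y₃`. -/
def StartH (β b₁ d0 s d : ℝ) (Φ : ℕ → ℝ → ℝ → ℝ) : Prop := ∀ᶠ n : ℕ in atTop, ∃ y3 κ : ℝ,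
  (n : ℝ) ^ (-b₁) ≤ y3 ∧ y3 ≤ 4 * (n : ℝ) ^ (-b₁) ∧ 1 ≤ κ ∧ κ ≤ 64 ∧
  (n : ℝ) ^ (-s) * y3 ^ 2 ≤ Asec β Φ n y3 (κ * ((n : ℝ) ^ (-d) * y3 ^ 3))
    (2 * (κ * ((n : ℝ) ^ (-d) * y3 ^ 3))) - 1 ∧
  ∀ z ∈ Icc y3 (2 * y3), ∀ W : ℝ, 0 < W → W ≤ (n : ℝ) ^ (-d0) * z ^ 3 → 1 ≤ At β Φ n z W

/-- The inequality for the difference of the entropies at the fields `2 v` and `v`; the response
over `(0, 4 v)` is known at an exponent in `[y, 2 y]`. -/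
def KDiffH (β b₁ e s s' d : ℝ) (Φ K : ℕ → ℝ → ℝ → ℝ) : Prop := ∀ ι : ℝ, 0 < ι →
  ∀ᶠ n : ℕ in atTop, ∀ y : ℝ, (n : ℝ) ^ (-(1 / 6) + e) ≤ y → y ≤ 4 * (n : ℝ) ^ (-b₁) →
    ∀ v : ℝ, (n : ℝ) ^ (-d) * y ^ 3 ≤ v → v ≤ 128 * ((n : ℝ) ^ (-d) * y ^ 3) →
    ∀ L : ℝ, (n : ℝ) ^ (-s') * y ^ 2 ≤ L → L ≤ (n : ℝ) ^ (-s) * y ^ 2 →
    (∃ z ∈ Icc y (2 * y), 1 ≤ At β Φ n z (4 * v)) →
    1 + L / 2 ≤ Asec β Φ n y v (2 * v) → Asec β Φ n y v (2 * v) ≤ 1 + L →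
    K n y (2 * v) - K n y v ≤ (1 + ι) * (n * y * v / β) * L

/-- The input of the flow. -/
def FlowInH (β b₁ : ℝ) (Φ K : ℕ → ℝ → ℝ → ℝ) : Prop := ∀ e : ℝ, 0 < e → ∃ s s' d0 d : ℝ,
  0 < s ∧ s < s' ∧ 0 < d0 ∧ d0 < d ∧ s' + d ≤ e ∧ StartH β b₁ d0 s d Φ ∧
    KDiffH β b₁ e s s' d Φ K

lemma At_anti {β : ℝ} (hβ : 0 < β) {Φ : ℕ → ℝ → ℝ → ℝ} {n : ℕ} {x : ℝ}
    (cv : ConcaveOn ℝ (Ici 0) (Φ n x)) {w v V : ℝ} (hV : 0 < V) (hVv : V ≤ v) (hw : 0 ≤ w)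
    (hwv : w < v) : Asec β Φ n x w v ≤ At β Φ n x V := by
  rw [At_eq]
  unfold Asec
  exact mul_le_mul_of_nonneg_left (sec_anti cv le_rfl hw hVv hV hwv) (by positivity)

/-- the history at `13 / 10 * y` -/
lemma hist_at {β δ κ x0 y1 z y D : ℝ} (hβ : 0 < β) {Φ : ℕ → ℝ → ℝ → ℝ} {n : ℕ} (hδ0 : 0 < δ)
    (hκ0 : 0 < κ) (hκ2 : κ ≤ 64) (hδd : 256 * δ ≤ D)
    (cv : ∀ z ∈ Icc x0 y1, ConcaveOn ℝ (Ici 0) (Φ n z)) (hx0 : 0 < x0) (hy : y ∈ Icc x0 y1)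
    (hz0 : 0 < z) (hzy : z ≤ y) (hyz : y ≤ 5 / 4 * z)
    (hist : ∀ u ∈ Icc y y1, 1 ≤ Asec β Φ n u (κ * (δ * u ^ 3)) (2 * (κ * (δ * u ^ 3))))
    (g6 : ∀ z ∈ Icc y1 (2 * y1), ∀ W : ℝ, 0 < W → W ≤ D * z ^ 3 → 1 ≤ At β Φ n z W) :
    ∃ u ∈ Icc z (2 * z), 1 ≤ At β Φ n u (4 * (κ * (δ * y ^ 3))) := by
  have hy0 : 0 < y := hx0.trans_le hy.1
  have hy30 : 0 < y ^ 3 := by positivity
  have hv0 : 0 < κ * (δ * y ^ 3) := by positivity
  refine ⟨13 / 10 * y, ⟨by linarith, by linarith⟩, ?_⟩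
  have hu0 : 0 < 13 / 10 * y := by linarith
  rcases le_total (13 / 10 * y) y1 with hu | hu
  · have h3 := hist (13 / 10 * y) ⟨by linarith, hu⟩
    have h4 := At_anti hβ (cv (13 / 10 * y) ⟨by linarith [hy.1], hu⟩)
      (V := 4 * (κ * (δ * y ^ 3))) (w := κ * (δ * (13 / 10 * y) ^ 3))
      (v := 2 * (κ * (δ * (13 / 10 * y) ^ 3))) (by linarith) ?_ (by positivity) ?_
    · linarith
    · have e1 : 2 * (κ * (δ * (13 / 10 * y) ^ 3)) = 2197 / 500 * (κ * (δ * y ^ 3)) := by ring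
      rw [e1]
      linarith
    · have : 0 < κ * (δ * (13 / 10 * y) ^ 3) := by positivity
      linarith
  · refine g6 (13 / 10 * y) ⟨hu, by linarith [hy.2]⟩ _ (by linarith) ?_
    have h3 : 4 * (κ * (δ * y ^ 3)) ≤ 256 * δ * y ^ 3 := by
      have : κ * (δ * y ^ 3) ≤ 64 * (δ * y ^ 3) :=
        mul_le_mul_of_nonneg_right hκ2 (by positivity)
      linarith
    have h4 : 256 * δ * y ^ 3 ≤ D * y ^ 3 := mul_le_mul_of_nonneg_right hδd hy30.le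
    have h5 : D * y ^ 3 ≤ D * (13 / 10 * y) ^ 3 :=
      mul_le_mul_of_nonneg_left (pow_le_pow_left₀ hy0.le (by linarith) 3) (by linarith)
    linarith

/-- **The response for `n^(-1/6+e) ≤ x ≤ n^(-b₁)`.** -/
theorem resp_of_kdiffH {β b₁ : ℝ} (hβ : 0 < β) (hb₁ : 0 < b₁) {Φ K : ℕ → ℝ → ℝ → ℝ}
    (cv : ∀ n : ℕ, 1 ≤ n → ∀ x : ℝ, 0 < x → x ≤ 1 / 2 → ConcaveOn ℝ (Ici 0) (Φ n x))
    (dx : ∀ n : ℕ, 1 ≤ n → ∀ x : ℝ, 0 < x → x ≤ 1 / 2 → ∀ v : ℝ, 0 ≤ v →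
      HasDerivAt (fun y => Φ n y v) (K n x v / x ^ 2) x)
    (hF : FlowInH β b₁ Φ K) : Resp b₁ (At β Φ) := by
  intro e he
  obtain ⟨s, s', d0, d, hs, hss, hd0, hdd, hsd, hS, hK⟩ := hF e he
  have hd : 0 < d := hd0.trans hdd
  refine ⟨s', d, by linarith, hd, hsd, ?_⟩
  obtain ⟨ι, hι⟩ : ∃ ι, ι = 3 * (s' - s) := ⟨_, rfl⟩
  have hι0 : 0 < ι := by rw [hι]; linarith
  have ev2 : ∀ᶠ n : ℕ in atTop, (n : ℝ) ^ (-b₁) ≤ 1 / 8 :=
    ((tendsto_rpow_neg_atTop hb₁).comp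
      (tendsto_natCast_atTop_atTop (R := ℝ))).eventually_le_const (by norm_num)
  have ev3 : ∀ᶠ n : ℕ in atTop, (n : ℝ) ^ (-(d - d0)) ≤ 1 / 256 :=
    ((tendsto_rpow_neg_atTop (sub_pos.2 hdd)).comp
      (tendsto_natCast_atTop_atTop (R := ℝ))).eventually_le_const (by norm_num)
  filter_upwards [hS, hK ι hι0, ev2, ev3, eventually_ge_atTop 1] with n g1 g2 g3 g5 g4 x hx hx1
  have hn1 : (1 : ℝ) ≤ n := by exact_mod_cast g4
  have hn0 : (0 : ℝ) < n := by linarith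
  obtain ⟨y1, κ, hy1l, hy1u, hκ1, hκ2, g1, g6⟩ := g1
  obtain ⟨x0, hx0⟩ : ∃ x0, x0 = (n : ℝ) ^ (-(1 / 6) + e) := ⟨_, rfl⟩
  obtain ⟨δ, hδ⟩ : ∃ δ, δ = (n : ℝ) ^ (-d) := ⟨_, rfl⟩
  obtain ⟨σ, hσ⟩ : ∃ σ, σ = (n : ℝ) ^ (-s) := ⟨_, rfl⟩
  have hb0 : 0 < (n : ℝ) ^ (-b₁) := Real.rpow_pos_of_pos hn0 _
  have hy10 : 0 < y1 := lt_of_lt_of_le hb0 hy1l
  have hy12 : y1 ≤ 1 / 2 := by linarith
  have hx00 : 0 < x0 := by rw [hx0]; exact Real.rpow_pos_of_pos hn0 _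
  have hδ0 : 0 < δ := by rw [hδ]; exact Real.rpow_pos_of_pos hn0 _
  have hσ0 : 0 < σ := by rw [hσ]; exact Real.rpow_pos_of_pos hn0 _
  have hκ0 : 0 < κ := by linarith
  have hδd : 256 * δ ≤ (n : ℝ) ^ (-d0) := by
    have h1 : (n : ℝ) ^ (-d) = (n : ℝ) ^ (-(d - d0)) * (n : ℝ) ^ (-d0) := by
      rw [← Real.rpow_add hn0]; congr 1; ring
    have h2 : 0 < (n : ℝ) ^ (-d0) := Real.rpow_pos_of_pos hn0 _
    rw [hδ, h1]
    nlinarith
  rw [← hδ, ← hσ] at g1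
  rw [← hx0] at hx
  have hxy1 : x ≤ y1 := hx1.trans hy1l
  have hxp : 0 < x := lt_of_lt_of_le hx00 hx
  obtain ⟨C, hC⟩ : ∃ C, C = 2 * (1 + ι) := ⟨_, rfl⟩
  obtain ⟨ℓ, hℓ⟩ : ∃ ℓ, ℓ = σ * y1 ^ (-(2 * ι)) := ⟨_, rfl⟩
  have hℓ0 : 0 < ℓ := by rw [hℓ]; exact mul_pos hσ0 (Real.rpow_pos_of_pos hy10 _)
  -- the barrier
  have hLx : ∀ z : ℝ, 0 < z → ℓ * z ^ C = σ * z ^ 2 * (z / y1) ^ (2 * ι) := by
    intro z hz
    rw [hℓ, hC, show (2 * (1 + ι) : ℝ) = (2 : ℕ) + 2 * ι by push_cast; ring, Real.rpow_add hz,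
      Real.rpow_natCast, Real.div_rpow hz.le hy10.le, Real.rpow_neg hy10.le]
    field_simp
  have hLup : ∀ z : ℝ, 0 < z → z ≤ y1 → ℓ * z ^ C ≤ σ * z ^ 2 := by
    intro z hz hzy
    rw [hLx z hz]
    have h1 : (z / y1) ^ (2 * ι) ≤ 1 :=
      Real.rpow_le_one (by positivity) (by rw [div_le_one hy10]; exact hzy) (by linarith)
    have h2 : 0 ≤ σ * z ^ 2 := by positivity
    nlinarith
  have hLlo : ∀ z : ℝ, x0 ≤ z → (n : ℝ) ^ (-s') * z ^ 2 ≤ ℓ * z ^ C := by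
    intro z hz
    have hz0 : 0 < z := lt_of_lt_of_le hx00 hz
    rw [hLx z hz0]
    have h1 : (n : ℝ) ^ (-(1 / 6) : ℝ) ≤ z / y1 := by
      rw [le_div_iff₀ hy10]
      refine le_trans ?_ hz
      have h0 : (n : ℝ) ^ (-(1 / 6) : ℝ) * y1 ≤ (n : ℝ) ^ (-(1 / 6) : ℝ) * 1 :=
        mul_le_mul_of_nonneg_left (by linarith) (Real.rpow_pos_of_pos hn0 _).le
      rw [mul_one] at h0
      refine h0.trans ?_
      rw [hx0]
      exact Real.rpow_le_rpow_of_exponent_le hn1 (by linarith)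
    have h2 : ((n : ℝ) ^ (-(1 / 6) : ℝ)) ^ (2 * ι) ≤ (z / y1) ^ (2 * ι) :=
      Real.rpow_le_rpow (by positivity) h1 (by linarith)
    have h3 : (n : ℝ) ^ (-s') ≤ σ * ((n : ℝ) ^ (-(1 / 6) : ℝ)) ^ (2 * ι) := by
      rw [hσ, ← Real.rpow_mul hn0.le, ← Real.rpow_add hn0]
      exact Real.rpow_le_rpow_of_exponent_le hn1 (by rw [hι]; linarith)
    have h4 : (n : ℝ) ^ (-s') ≤ σ * (z / y1) ^ (2 * ι) :=
      h3.trans (mul_le_mul_of_nonneg_left h2 hσ0.le)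
    have h5 : 0 ≤ z ^ 2 := by positivity
    nlinarith
  have hcb : (0 : ℝ) < 2 * β / n := by positivity
  have hsub : ∀ z ∈ Icc x0 y1, 0 < z ∧ z ≤ 1 / 2 := fun z hz =>
    ⟨lt_of_lt_of_le hx00 hz.1, hz.2.trans hy12⟩
  have hmono : MonotoneOn (fun z : ℝ => κ * (δ * z ^ 3)) (Icc x0 y1) := by
    intro a ha b hb hab
    have h1 : 0 ≤ a := (hsub a ha).1.le
    exact mul_le_mul_of_nonneg_left
      (mul_le_mul_of_nonneg_left (pow_le_pow_left₀ h1 hab 3) hδ0.le) hκ0.le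
  have key := flow_powH (Φ := Φ n) (K := K n) (V := fun z => 2 * (κ * (δ * z ^ 3)))
    (w := fun z => κ * (δ * z ^ 3)) (c := 2 * β / n) (x0 := x0) (y1 := y1) (ρ := 5 / 4)
    (η := 1 / 2) (ℓ := ℓ) (C := C) hx00 (by norm_num) (by norm_num) hcb hℓ0
    (fun z hz => cv n g4 z (hsub z hz).1 (hsub z hz).2)
    (fun z hz v hv => dx n g4 z (hsub z hz).1 (hsub z hz).2 v hv)
    (fun a ha b hb hab => by
      have := hmono ha hb hab
      simp only at this ⊢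
      linarith) hmono
    (fun z hz => by have := (hsub z hz).1; positivity)
    (fun z hz => by
      have h1 := (hsub z hz).1
      have : 0 < κ * (δ * z ^ 3) := by positivity
      linarith) ?_ ?_
  · have h1 := key x ⟨hx, hxy1⟩
    have hv : 0 < δ * x ^ 3 := by positivity
    have hv1 : δ * x ^ 3 ≤ κ * (δ * x ^ 3) := le_mul_of_one_le_left hv.le hκ1
    have h2 := At_anti hβ (cv n g4 x hxp (hxy1.trans hy12)) (V := δ * x ^ 3)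
      (w := κ * (δ * x ^ 3)) (v := 2 * (κ * (δ * x ^ 3))) hv (by linarith) (hv.le.trans hv1)
      (by linarith)
    rw [← hδ]
    unfold Asec at h2
    have h4 := hLlo x hx
    linarith
  · intro z hz y hy hzy hyz hist h1 h2
    have hz0 := (hsub z hz).1
    have hy0 := (hsub y hy).1
    have hyz3 : y ^ 3 ≤ 2 * z ^ 3 := by
      have h3 : y ^ 3 ≤ (5 / 4 * z) ^ 3 := pow_le_pow_left₀ hy0.le hyz 3
      have h4 : (5 / 4 * z) ^ 3 = 125 / 64 * z ^ 3 := by ring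
      have h5 : 0 < z ^ 3 := by positivity
      linarith
    have hzy3 : z ^ 3 ≤ y ^ 3 := pow_le_pow_left₀ hz0.le hzy 3
    have hz30 : 0 < z ^ 3 := by positivity
    have hy30 : 0 < y ^ 3 := by positivity
    have hv0 : 0 < κ * (δ * y ^ 3) := by positivity
    have hh : ∃ u ∈ Icc z (2 * z), 1 ≤ At β Φ n u (4 * (κ * (δ * y ^ 3))) := by
      refine hist_at hβ hδ0 hκ0 hκ2 hδd (fun z hz => cv n g4 z (hsub z hz).1 (hsub z hz).2) hx00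
        hy hz0 hzy hyz (fun u hu => ?_) g6
      have h5 : 0 < ℓ * u ^ C := mul_pos hℓ0 (Real.rpow_pos_of_pos (hy0.trans_le hu.1) _)
      have h6 := hist u hu
      unfold Asec
      linarith
    have hκδ : δ * y ^ 3 ≤ κ * (δ * y ^ 3) := le_mul_of_one_le_left (by positivity) hκ1
    have hδz : δ * z ^ 3 ≤ δ * y ^ 3 := mul_le_mul_of_nonneg_left hzy3 hδ0.le
    have hκδ2 : κ * (δ * y ^ 3) ≤ 64 * (δ * y ^ 3) :=
      mul_le_mul_of_nonneg_right hκ2 (by positivity)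
    have hδz2 : δ * y ^ 3 ≤ δ * (2 * z ^ 3) := mul_le_mul_of_nonneg_left hyz3 hδ0.le
    have h3 := g2 z (by rw [← hx0]; exact hz.1) (hz.2.trans hy1u) (κ * (δ * y ^ 3))
      (by rw [← hδ]; linarith) (by rw [← hδ]; linarith)
      (ℓ * z ^ C) (hLlo z hz.1) (by rw [← hσ]; exact hLup z hz0 hz.2) hh
      (by unfold Asec; linarith) (by unfold Asec; linarith)
    have h4 := mul_le_mul_of_nonneg_left h3 hcb.le
    refine h4.trans (le_of_eq ?_)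
    rw [hC]
    field_simp
    ring
  · rw [hLx y1 hy10, div_self hy10.ne', Real.one_rpow, mul_one]
    unfold Asec at g1
    linarith

end Vale.Agent.P146.H178
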