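import Vale.Agent.P146.H178.KSlope

set_option linter.all false

/-!
# P146: the difference of the entropies from the two-sided formula of the amplitude law

`Ka n y V a` is the relative entropy of an auxiliary law at `(y, V)` built with the slope `a`.
* `LinkUp`, `LinkDn`: comparison of `KV` at `y` with `Ka` at neighbouring exponents;
* `KampUp`, `KampLow`: `Ka n y V a = (n y² β² / 4) (J(β y, 2 a, V / β²) + small)`.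
Together they give the input `KDiffH` of the flow.
-/

open MeasureTheory Set Filter Topology

namespace Vale.Agent.P146.H178

open H9 (Phn KV)
open H529 (SG)
open H317 (J)

/-- The entropy at `y` by the auxiliary law at `y (1 + n^(-ch))`. -/
def LinkUp (β e ch g w d : ℝ) (Ka : ℕ → ℝ → ℝ → ℝ → ℝ) : Prop := ∀ A : ℝ, 1 ≤ A →
  ∀ᶠ n : ℕ in atTop, ∀ y : ℝ, (n : ℝ) ^ (-(1 / 6) + e) ≤ A * y → y ≤ 1 / 64 →
    ∀ V : ℝ, (n : ℝ) ^ (-d) * y ^ 3 ≤ A * V → V ≤ y ^ 2 →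
    ∀ a a' : ℝ, SG n β y V a → SG n β (y * (1 + (n : ℝ) ^ (-ch))) V a' →
      |a| ≤ (n : ℝ) ^ w * y ^ 2 → |a'| ≤ (n : ℝ) ^ w * y ^ 2 →
      KV n β y V ≤ Ka n (y * (1 + (n : ℝ) ^ (-ch))) V a' + (n : ℝ) ^ (1 - g) * y ^ 6

/-- The auxiliary law at `y` by the entropy at `y (1 + n^(-ch))`. -/
def LinkDn (β e ch g w d : ℝ) (Ka : ℕ → ℝ → ℝ → ℝ → ℝ) : Prop := ∀ A : ℝ, 1 ≤ A →
  ∀ᶠ n : ℕ in atTop, ∀ y : ℝ, (n : ℝ) ^ (-(1 / 6) + e) ≤ A * y → y ≤ 1 / 64 →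
    ∀ V : ℝ, (n : ℝ) ^ (-d) * y ^ 3 ≤ A * V → V ≤ y ^ 2 →
    ∀ a a' : ℝ, SG n β y V a → SG n β (y * (1 + (n : ℝ) ^ (-ch))) V a' →
      |a| ≤ (n : ℝ) ^ w * y ^ 2 → |a'| ≤ (n : ℝ) ^ w * y ^ 2 →
      Ka n y V a ≤ KV n β (y * (1 + (n : ℝ) ^ (-ch))) V + (n : ℝ) ^ (1 - g) * y ^ 6

/-- The upper half of the formula. -/
def KampUp (β b₁ e s0 s s' d c : ℝ) (Ka : ℕ → ℝ → ℝ → ℝ → ℝ) : Prop := ∀ A : ℝ, 1 ≤ A →
  ∀ᶠ n : ℕ in atTop, ∀ y : ℝ, (n : ℝ) ^ (-(1 / 6) + e) ≤ A * y → y ≤ A * (n : ℝ) ^ (-b₁) →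
    ∀ V : ℝ, (n : ℝ) ^ (-d) * y ^ 3 ≤ A * V → V ≤ A * ((n : ℝ) ^ (-d) * y ^ 3) →
    ∀ a : ℝ, (n : ℝ) ^ (-s') * y ^ 2 ≤ A * a → a ≤ A * ((n : ℝ) ^ (-s) * y ^ 2) →
    ∀ a0 : ℝ, SG n β y V a0 → a0 ≤ a → AP β s0 n y (2 * V) →
      Ka n y V a0 ≤ n * y ^ 2 * β ^ 2 / 4 *
        (J (β * y) (2 * a) (V / β ^ 2) + (n : ℝ) ^ (-(d + s' + c)) * y ^ 4)

/-- The lower half of the formula. -/
def KampLow (β b₁ e s0 s s' d c : ℝ) (Ka : ℕ → ℝ → ℝ → ℝ → ℝ) : Prop := ∀ A : ℝ, 1 ≤ A →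
  ∀ᶠ n : ℕ in atTop, ∀ y : ℝ, (n : ℝ) ^ (-(1 / 6) + e) ≤ A * y → y ≤ A * (n : ℝ) ^ (-b₁) →
    ∀ V : ℝ, (n : ℝ) ^ (-d) * y ^ 3 ≤ A * V → V ≤ A * ((n : ℝ) ^ (-d) * y ^ 3) →
    ∀ a : ℝ, (n : ℝ) ^ (-s') * y ^ 2 ≤ A * a → a ≤ A * ((n : ℝ) ^ (-s) * y ^ 2) →
    ∀ a0 : ℝ, SG n β y V a0 → a ≤ a0 → AP β s0 n y (2 * V) →
      n * y ^ 2 * β ^ 2 / 4 *
        (J (β * y) (2 * a) (V / β ^ 2) - (n : ℝ) ^ (-(d + s' + c)) * y ^ 4) ≤ Ka n y V a0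

lemma num_P {β y v a L t D S' : ℝ} (hβ : 1 < β) (hy : 0 < y) (hv : 0 < v) (hS' : 0 < S')
    (ht0 : 0 < t) (hv2 : v ≤ 128 * (D * y ^ 3)) (hL1 : S' * y ^ 2 ≤ L) (hLa : L / 2 ≤ a)
    (c1 : 512 * D ≤ t * S' ^ 2) : y * v / β ≤ t * a ^ 2 := by
  have hβ0 : 0 < β := by linarith
  have h1 : y * v / β ≤ y * v := div_le_self (by positivity) hβ.le
  have h2 : y * v ≤ 128 * D * y ^ 4 := by
    have := mul_le_mul_of_nonneg_left hv2 hy.le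
    linarith [show y * (128 * (D * y ^ 3)) = 128 * D * y ^ 4 by ring]
  have h3 : S' * y ^ 2 / 2 ≤ a := by linarith
  have h4 : (S' * y ^ 2 / 2) ^ 2 ≤ a ^ 2 := pow_le_pow_left₀ (by positivity) h3 2
  have h5 : t * (S' * y ^ 2 / 2) ^ 2 ≤ t * a ^ 2 := mul_le_mul_of_nonneg_left h4 ht0.le
  have h6 : 128 * D * y ^ 4 ≤ t * (S' * y ^ 2 / 2) ^ 2 := by
    have h7 := mul_le_mul_of_nonneg_right c1 (show 0 ≤ y ^ 4 / 4 by positivity)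
    linarith [show 512 * D * (y ^ 4 / 4) = 128 * D * y ^ 4 by ring,
      show t * S' ^ 2 * (y ^ 4 / 4) = t * (S' * y ^ 2 / 2) ^ 2 by ring]
  linarith

lemma num_δ {β y v a t D S T θ : ℝ} (hβ : 1 < β) (hy : 0 < y) (hv : 0 < v) (hD0 : 0 < D)
    (ht0 : 0 < t) (hθ0 : 0 < θ) (hT : 0 ≤ T) (hv1 : D * y ^ 3 ≤ v) (ha : a ≤ S * y ^ 2)
    (c2 : 64 * β ^ 2 * θ * T * S ≤ t * D ^ 2) :
    64 * β * θ * T * y ^ 5 / v * a ≤ t * (y * v / β) := by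
  have hβ0 : 0 < β := by linarith
  have e1 : 64 * β * θ * T * y ^ 5 / v * a = 64 * β * θ * T * y ^ 5 * a / v := by ring
  rw [e1, div_le_iff₀ hv]
  have h1 : 64 * β * θ * T * y ^ 5 * a ≤ 64 * β * θ * T * y ^ 5 * (S * y ^ 2) :=
    mul_le_mul_of_nonneg_left ha (by positivity)
  have h2 : (D * y ^ 3) ^ 2 ≤ v ^ 2 := pow_le_pow_left₀ (by positivity) hv1 2
  have h3 : t * (y * v / β) * v = t * y / β * v ^ 2 := by ring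
  rw [h3]
  have h4 : t * y / β * (D * y ^ 3) ^ 2 ≤ t * y / β * v ^ 2 :=
    mul_le_mul_of_nonneg_left h2 (by positivity)
  have h5 := mul_le_mul_of_nonneg_left c2 (show 0 ≤ y ^ 7 / β by positivity)
  have e2 : y ^ 7 / β * (64 * β ^ 2 * θ * T * S) = 64 * β * θ * T * y ^ 5 * (S * y ^ 2) := by
    field_simp
  have e3 : y ^ 7 / β * (t * D ^ 2) = t * y / β * (D * y ^ 3) ^ 2 := by ring
  rw [e2, e3] at h5
  linarith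

lemma num_E {N β y v a L t D S' q0 g0 : ℝ} (hN : 0 < N) (hβ : 1 < β) (hy : 0 < y) (hv : 0 < v)
    (hD0 : 0 < D) (hS' : 0 < S') (ht0 : 0 < t) (hv1 : D * y ^ 3 ≤ v) (hL1 : S' * y ^ 2 ≤ L)
    (hLa : L / 2 ≤ a) (c3 : 16 * β ^ 2 * q0 + g0 ≤ t * (D * S') / (2 * β)) :
    N * (2 * y) ^ 2 * β ^ 2 / 4 * (q0 * (2 * y) ^ 4) + N * g0 * y ^ 6 ≤
      t * (N * (y * v / β) * a) := by
  have hβ0 : 0 < β := by linarith
  have h3 : S' * y ^ 2 / 2 ≤ a := by linarith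
  have h4 : D * y ^ 3 * (S' * y ^ 2 / 2) ≤ v * a := mul_le_mul hv1 h3 (by positivity) hv.le
  have h5 := mul_le_mul_of_nonneg_left h4 (show 0 ≤ t * N * y / β by positivity)
  have e1 : t * N * y / β * (v * a) = t * (N * (y * v / β) * a) := by ring
  have e2 : t * N * y / β * (D * y ^ 3 * (S' * y ^ 2 / 2)) =
      N * y ^ 6 * (t * (D * S') / (2 * β)) := by
    field_simp
  rw [e1, e2] at h5
  have h6 := mul_le_mul_of_nonneg_left c3 (show 0 ≤ N * y ^ 6 by positivity)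
  have e3 : N * (2 * y) ^ 2 * β ^ 2 / 4 * (q0 * (2 * y) ^ 4) + N * g0 * y ^ 6 =
      N * y ^ 6 * (16 * β ^ 2 * q0 + g0) := by ring
  rw [e3]
  exact h6.trans h5

/-- bounds of the neighbouring exponents -/
lemma nb {y θ : ℝ} (hy : 0 < y) (hθ0 : 0 < θ) (hθ1 : θ ≤ 1) :
    y / 2 ≤ y * (1 + θ) ∧ y * (1 + θ) ≤ 2 * y ∧ y / 2 ≤ y / (1 + θ) ∧ y / (1 + θ) ≤ y := by
  have h1θ : 0 < 1 + θ := by linarith
  have h1 : 0 < y * θ := by positivity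
  have h2 : y * θ ≤ y := mul_le_of_le_one_right hy.le hθ1
  have e : y * (1 + θ) = y + y * θ := by ring
  refine ⟨by rw [e]; linarith, by rw [e]; linarith, ?_, ?_⟩
  · rw [le_div_iff₀ h1θ]
    have e2 : y / 2 * (1 + θ) = y / 2 + y * θ / 2 := by ring
    rw [e2]
    linarith
  · rw [div_le_iff₀ h1θ, e]
    linarith

/-- the error at a neighbouring exponent -/
lemma err_nb {N y β q0 z : ℝ} (hN : 0 < N) (hq0 : 0 ≤ q0) (hz : 0 ≤ z) (hz2 : z ≤ 2 * y) :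
    N * z ^ 2 * β ^ 2 / 4 * (q0 * z ^ 4) ≤ N * (2 * y) ^ 2 * β ^ 2 / 4 * (q0 * (2 * y) ^ 4) := by
  have h2 : z ^ 2 ≤ (2 * y) ^ 2 := pow_le_pow_left₀ hz hz2 2
  have h4 : z ^ 4 ≤ (2 * y) ^ 4 := pow_le_pow_left₀ hz hz2 4
  have h5 : N * z ^ 2 * β ^ 2 / 4 ≤ N * (2 * y) ^ 2 * β ^ 2 / 4 := by
    have := mul_le_mul_of_nonneg_left h2 (show 0 ≤ N * β ^ 2 / 4 by positivity)
    linarith [show N * β ^ 2 / 4 * z ^ 2 = N * z ^ 2 * β ^ 2 / 4 by ring,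
      show N * β ^ 2 / 4 * (2 * y) ^ 2 = N * (2 * y) ^ 2 * β ^ 2 / 4 by ring]
  exact mul_le_mul h5 (mul_le_mul_of_nonneg_left h4 hq0) (by positivity) (by positivity)

/-- from the inputs at the neighbouring exponents to the form of `kdiff_num` -/
lemma up_form {N y β q0 g0 z X K : ℝ} (hN : 0 < N) (hq0 : 0 ≤ q0) (hz : 0 ≤ z) (hz2 : z ≤ 2 * y)
    (h : K ≤ N * z ^ 2 * β ^ 2 / 4 * (X + q0 * z ^ 4) + N * g0 * y ^ 6) :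
    K ≤ N * z ^ 2 * β ^ 2 / 4 * X +
      (N * (2 * y) ^ 2 * β ^ 2 / 4 * (q0 * (2 * y) ^ 4) + N * g0 * y ^ 6) := by
  have h1 := err_nb (β := β) hN hq0 hz hz2
  rw [mul_add] at h
  linarith

lemma lo_form {N y β q0 g0 z X K : ℝ} (hN : 0 < N) (hq0 : 0 ≤ q0) (hz : 0 ≤ z) (hz2 : z ≤ 2 * y)
    (h : N * z ^ 2 * β ^ 2 / 4 * (X - q0 * z ^ 4) - N * g0 * y ^ 6 ≤ K) :
    N * z ^ 2 * β ^ 2 / 4 * X -
      (N * (2 * y) ^ 2 * β ^ 2 / 4 * (q0 * (2 * y) ^ 4) + N * g0 * y ^ 6) ≤ K := by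
  have h1 := err_nb (β := β) hN hq0 hz hz2
  rw [mul_sub] at h
  linarith

/-- **One `n`.** -/
theorem kdiff_one {n : ℕ} {β y v L a t ι θ T D S S' q0 g0 : ℝ}
    (hn : 1 ≤ n) (hβ : 1 < β) (hy : 0 < y) (hy1 : y ≤ 1 / 64) (ht0 : 0 < t) (ht1 : t ≤ 1 / 100)
    (hι : 30 * t ≤ ι) (hθ0 : 0 < θ) (hθ : θ ≤ t) (hT : 0 ≤ T) (hD0 : 0 < D)
    (hS0 : 0 < S) (hS1 : S ≤ 1) (hS' : 0 < S') (hq0 : 0 ≤ q0)
    (hv1 : D * y ^ 3 ≤ v) (hv2 : v ≤ 128 * (D * y ^ 3)) (hL1 : S' * y ^ 2 ≤ L)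
    (hL2 : L ≤ S * y ^ 2) (ha1 : L / 2 ≤ a) (ha2 : a ≤ L)
    (c1 : 512 * D ≤ t * S' ^ 2) (c2 : 64 * β ^ 2 * θ * T * S ≤ t * D ^ 2)
    (c3 : 16 * β ^ 2 * q0 + g0 ≤ t * (D * S') / (2 * β))
    (ha : Phn n β y (2 * v) - Phn n β y v = n / (2 * β) * (1 + a) * v)
    (hk : ∀ u : ℝ, y / 2 ≤ u → u ≤ 2 * y → KV n β u (2 * v) ≤ n * T * u ^ 6)
    {δ : ℝ} (hδ : δ = 64 * β * θ * T * y ^ 5 / v)
    (hU : ∀ ap : ℝ, SG n β (y * (1 + θ)) (2 * v) ap → ap ≤ a + δ →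
      KV n β y (2 * v) ≤ n * (y * (1 + θ)) ^ 2 * β ^ 2 / 4 *
        (J (β * (y * (1 + θ))) (2 * (a + δ)) (2 * v / β ^ 2) + q0 * (y * (1 + θ)) ^ 4) +
        n * g0 * y ^ 6)
    (hL : ∀ am : ℝ, SG n β (y / (1 + θ)) v am → a - δ ≤ am →
      n * (y / (1 + θ)) ^ 2 * β ^ 2 / 4 *
        (J (β * (y / (1 + θ))) (2 * (a - δ)) (v / β ^ 2) - q0 * (y / (1 + θ)) ^ 4) -
        n * g0 * y ^ 6 ≤ KV n β y v) :
    KV n β y (2 * v) - KV n β y v ≤ (1 + ι) * (n * y * v / β) * L := by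
  have hβ0 : 0 < β := by linarith
  have hn0 : (0 : ℝ) < n := by exact_mod_cast hn
  have hv : 0 < v := lt_of_lt_of_le (by positivity) hv1
  have hL0 : 0 < L := lt_of_lt_of_le (by positivity) hL1
  have ha0 : 0 < a := by linarith
  have hθ1 : θ ≤ 1 := by linarith
  have h1θ : 0 < 1 + θ := by linarith
  have hy2 : y ^ 2 ≤ 1 / 4 := by
    have h1 : y ^ 2 ≤ (1 / 64) ^ 2 := pow_le_pow_left₀ hy.le hy1 2
    linarith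
  have ha4 : a ≤ 1 / 4 := by
    have h1 : S * y ^ 2 ≤ 1 * (1 / 4) := mul_le_mul hS1 hy2 (by positivity) (by norm_num)
    linarith
  have hδ0 : 0 ≤ δ := by rw [hδ]; positivity
  obtain ⟨b1, b2, b3, b4⟩ := nb hy hθ0 hθ1
  obtain ⟨ap, hap⟩ := exists_SG (n := n) (β := β) (y := y * (1 + θ)) (V := 2 * v) hn hβ0
    (by positivity) (by linarith) (by linarith)
  obtain ⟨am, ham⟩ := exists_SG (n := n) (β := β) (y := y / (1 + θ)) (V := v) hn hβ0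
    (by positivity) (by linarith) hv
  have s1 := slope_up hn hβ0 hy hθ0 hθ1 hv hT ha (hk _ b1 b2) hap
  have s2 := slope_dn hn hβ0 hy hθ0 hv hT ha (hk y (by linarith) (by linarith)) ham
  rw [← hδ] at s1 s2
  have u1 := up_form hn0 hq0 (show 0 ≤ y * (1 + θ) by positivity) b2 (hU ap hap s1)
  have l1 := lo_form hn0 hq0 (show 0 ≤ y / (1 + θ) by positivity) (by linarith) (hL am ham s2)
  have c4 := num_δ hβ hy hv hD0 ht0 hθ0 hT hv1 (ha2.trans hL2) c2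
  rw [← hδ] at c4
  have key := kdiff_num hn0 hy hβ0 hv ha0 ha4 ht0 ht1 hι hδ0 c4 hθ0.le hθ
    (num_P hβ hy hv hS' ht0 hv2 hL1 ha1 c1)
    (num_E hn0 hβ hy hv hD0 hS' ht0 hv1 hL1 ha1 c3) u1 l1
  refine key.trans (mul_le_mul_of_nonneg_left ha2 ?_)
  have : 0 < ι := by linarith
  positivity

section one

variable {n : ℕ} {β y v a δ θ D S S' s0 W q0 G X0 B0 L : ℝ} {Ka : ℝ → ℝ → ℝ → ℝ}

/-- the sizes of the slopes -/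
lemma sl_bd (hn : 1 ≤ n) (hβ : 1 < β) (hy : 0 < y) (hD0 : 0 < D) (hv1 : D * y ^ 3 ≤ v)
    (hW : 512 * β * (n : ℝ) ^ s0 ≤ W * D) {u V a0 : ℝ} (hu1 : y / 2 ≤ u) (hu2 : u ≤ 2 * y)
    (hap : AP β s0 n u (4 * v)) (hV1 : v ≤ V) (hV2 : V ≤ 2 * v) (h : SG n β u V a0) :
    |a0| ≤ W * (y / 2) ^ 2 := by
  have hβ0 : 0 < β := by linarith
  have hn0 : (0 : ℝ) < n := by exact_mod_cast hn
  have hv : 0 < v := lt_of_lt_of_le (by positivity) hv1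
  have h1 := hap.al_abs hβ0 hn (by linarith) (by linarith) (by linarith) h
  refine h1.trans ?_
  have h2 : u ^ 5 ≤ (2 * y) ^ 5 := pow_le_pow_left₀ (by linarith) hu2 5
  have h3 : (n : ℝ) ^ s0 * u ^ 5 / V ≤ (n : ℝ) ^ s0 * (2 * y) ^ 5 / (D * y ^ 3) := by
    apply div_le_div₀ (by positivity) (mul_le_mul_of_nonneg_left h2 (by positivity))
      (by positivity) (hv1.trans hV1)
  have h4 := mul_le_mul_of_nonneg_left h3 (show 0 ≤ 4 * β by positivity)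
  refine h4.trans ?_
  have e1 : 4 * β * ((n : ℝ) ^ s0 * (2 * y) ^ 5 / (D * y ^ 3)) =
      512 * β * (n : ℝ) ^ s0 / D * (y / 2) ^ 2 := by
    field_simp
    ring
  rw [e1]
  refine mul_le_mul_of_nonneg_right ?_ (by positivity)
  rw [div_le_iff₀ hD0]
  exact hW

/-- the upper input of `kdiff_one` -/
lemma up_in (hn : 1 ≤ n) (hβ : 1 < β) (hy : 0 < y) (hy1 : y ≤ 1 / 64) (hθ0 : 0 < θ) (hθ1 : θ ≤ 1)
    (hX : X0 ≤ y) (hB : y ≤ 4 * B0) (hD0 : 0 < D) (hD1 : D ≤ 1 / 8) (hS0 : 0 < S) (hS' : 0 < S')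
    (hv1 : D * y ^ 3 ≤ v) (hv2 : v ≤ 128 * (D * y ^ 3)) (ha1 : S' * y ^ 2 ≤ 2 * a)
    (ha2 : a ≤ S * y ^ 2) (hδ0 : 0 ≤ δ) (hδa : δ ≤ a / 2)
    (hW : 512 * β * (n : ℝ) ^ s0 ≤ W * D)
    (hap : ∀ u : ℝ, y / 2 ≤ u → u ≤ 2 * y → AP β s0 n u (4 * v))
    (h4v : 4 * v ≤ y ^ 2)
    (hLU : ∀ y : ℝ, X0 ≤ 2048 * y → y ≤ 1 / 64 → ∀ V : ℝ, D * y ^ 3 ≤ 2048 * V →
      V ≤ y ^ 2 → ∀ a a' : ℝ, SG n β y V a → SG n β (y * (1 + θ)) V a' →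
      |a| ≤ W * y ^ 2 → |a'| ≤ W * y ^ 2 → KV n β y V ≤ Ka (y * (1 + θ)) V a' + G * y ^ 6)
    (hKU : ∀ y : ℝ, X0 ≤ 2048 * y → y ≤ 2048 * B0 → ∀ V : ℝ, D * y ^ 3 ≤ 2048 * V →
      V ≤ 2048 * (D * y ^ 3) → ∀ a : ℝ, S' * y ^ 2 ≤ 2048 * a → a ≤ 2048 * (S * y ^ 2) →
      ∀ a0 : ℝ, SG n β y V a0 → a0 ≤ a → AP β s0 n y (2 * V) →
      Ka y V a0 ≤ n * y ^ 2 * β ^ 2 / 4 * (J (β * y) (2 * a) (V / β ^ 2) + q0 * y ^ 4))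
    {ap : ℝ} (h1 : SG n β (y * (1 + θ)) (2 * v) ap) (h2 : ap ≤ a + δ) :
    KV n β y (2 * v) ≤ n * (y * (1 + θ)) ^ 2 * β ^ 2 / 4 *
        (J (β * (y * (1 + θ))) (2 * (a + δ)) (2 * v / β ^ 2) + q0 * (y * (1 + θ)) ^ 4) +
        G * y ^ 6 := by
  have hβ0 : 0 < β := by linarith
  have hn0 : (0 : ℝ) < n := by exact_mod_cast hn
  have hv : 0 < v := lt_of_lt_of_le (by positivity) hv1
  have hy3 : 0 < y ^ 3 := by positivity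
  have hy22 : 0 < y ^ 2 := by positivity
  have hS'y : 0 < S' * y ^ 2 := by positivity
  have ha0 : 0 < a := by linarith
  obtain ⟨b1, b2, b3, b4⟩ := nb hy hθ0 hθ1
  obtain ⟨z, hz⟩ : ∃ z, z = y * (1 + θ) := ⟨_, rfl⟩
  have hyz : y ≤ z := by
    have : y * (1 + θ) = y + y * θ := by ring
    have : 0 < y * θ := by positivity
    linarith
  obtain ⟨a0, ha0'⟩ := exists_SG (n := n) (β := β) (y := y) (V := 2 * v) hn hβ0 hy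
    (by linarith) (by linarith)
  have s1 := sl_bd hn hβ hy hD0 hv1 hW (by linarith) (by linarith) (hap y (by linarith)
    (by linarith)) (by linarith) (by linarith) ha0'
  have s2 := sl_bd hn hβ hy hD0 hv1 hW b1 b2 (hap _ b1 b2) (by linarith) (by linarith) h1
  have hWy : W * (y / 2) ^ 2 ≤ W * y ^ 2 := by
    have hW0 : 0 ≤ W * (y / 2) ^ 2 := (abs_nonneg _).trans s1
    have e : W * y ^ 2 = 4 * (W * (y / 2) ^ 2) := by ring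
    rw [e]
    linarith
  have hDy : D * y ^ 3 ≤ 1 / 8 * y ^ 3 := mul_le_mul_of_nonneg_right hD1 hy3.le
  have k1 := hLU y (by linarith) hy1 (2 * v) (by linarith) (by linarith) a0 ap ha0' h1
    (s1.trans hWy) (s2.trans hWy)
  rw [← hz] at k1 b1 b2 h1 ⊢
  have hz0 : 0 < z := by linarith
  have hz3 : z ^ 3 ≤ (2 * y) ^ 3 := pow_le_pow_left₀ hz0.le b2 3
  have hz2 : z ^ 2 ≤ (2 * y) ^ 2 := pow_le_pow_left₀ hz0.le b2 2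
  have hz3' : y ^ 3 ≤ z ^ 3 := pow_le_pow_left₀ hy.le hyz 3
  have hz2' : y ^ 2 ≤ z ^ 2 := pow_le_pow_left₀ hy.le hyz 2
  have m1 : D * z ^ 3 ≤ D * (2 * y) ^ 3 := mul_le_mul_of_nonneg_left hz3 hD0.le
  have m2 : D * y ^ 3 ≤ D * z ^ 3 := mul_le_mul_of_nonneg_left hz3' hD0.le
  have m3 : S' * z ^ 2 ≤ S' * (2 * y) ^ 2 := mul_le_mul_of_nonneg_left hz2 hS'.le
  have m4 : S * y ^ 2 ≤ S * z ^ 2 := mul_le_mul_of_nonneg_left hz2' hS0.le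
  have e1 : D * (2 * y) ^ 3 = 8 * (D * y ^ 3) := by ring
  have e2 : S' * (2 * y) ^ 2 = 4 * (S' * y ^ 2) := by ring
  have k2 := hKU z (by linarith) (by linarith) (2 * v) (by linarith) (by linarith)
    (a + δ) (by linarith) (by linarith) ap h1 h2 ((hap z b1 b2).mono (by linarith))
  linarith

/-- the lower input of `kdiff_one` -/
lemma lo_in (hn : 1 ≤ n) (hβ : 1 < β) (hy : 0 < y) (hy1 : y ≤ 1 / 64) (hθ0 : 0 < θ) (hθ1 : θ ≤ 1)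
    (hX : X0 ≤ y) (hB : y ≤ 4 * B0) (hD0 : 0 < D) (hD1 : D ≤ 1 / 8) (hS0 : 0 < S) (hS' : 0 < S')
    (hG : 0 ≤ G)
    (hv1 : D * y ^ 3 ≤ v) (hv2 : v ≤ 128 * (D * y ^ 3)) (ha1 : S' * y ^ 2 ≤ 2 * a)
    (ha2 : a ≤ S * y ^ 2) (hδ0 : 0 ≤ δ) (hδa : δ ≤ a / 2)
    (hW : 512 * β * (n : ℝ) ^ s0 ≤ W * D)
    (hap : ∀ u : ℝ, y / 2 ≤ u → u ≤ 2 * y → AP β s0 n u (4 * v))
    (h4v : 4 * v ≤ y ^ 2)
    (hLD : ∀ y : ℝ, X0 ≤ 2048 * y → y ≤ 1 / 64 → ∀ V : ℝ, D * y ^ 3 ≤ 2048 * V →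
      V ≤ y ^ 2 → ∀ a a' : ℝ, SG n β y V a → SG n β (y * (1 + θ)) V a' →
      |a| ≤ W * y ^ 2 → |a'| ≤ W * y ^ 2 → Ka y V a ≤ KV n β (y * (1 + θ)) V + G * y ^ 6)
    (hKL : ∀ y : ℝ, X0 ≤ 2048 * y → y ≤ 2048 * B0 → ∀ V : ℝ, D * y ^ 3 ≤ 2048 * V →
      V ≤ 2048 * (D * y ^ 3) → ∀ a : ℝ, S' * y ^ 2 ≤ 2048 * a → a ≤ 2048 * (S * y ^ 2) →
      ∀ a0 : ℝ, SG n β y V a0 → a ≤ a0 → AP β s0 n y (2 * V) →
      n * y ^ 2 * β ^ 2 / 4 * (J (β * y) (2 * a) (V / β ^ 2) - q0 * y ^ 4) ≤ Ka y V a0)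
    {am : ℝ} (h1 : SG n β (y / (1 + θ)) v am) (h2 : a - δ ≤ am) :
    n * (y / (1 + θ)) ^ 2 * β ^ 2 / 4 *
        (J (β * (y / (1 + θ))) (2 * (a - δ)) (v / β ^ 2) - q0 * (y / (1 + θ)) ^ 4) -
        G * y ^ 6 ≤ KV n β y v := by
  have hβ0 : 0 < β := by linarith
  have hn0 : (0 : ℝ) < n := by exact_mod_cast hn
  have hv : 0 < v := lt_of_lt_of_le (by positivity) hv1
  have hy3 : 0 < y ^ 3 := by positivity
  have hy22 : 0 < y ^ 2 := by positivity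
  have hS'y : 0 < S' * y ^ 2 := by positivity
  have ha0 : 0 < a := by linarith
  have h1θ : 0 < 1 + θ := by linarith
  obtain ⟨b1, b2, b3, b4⟩ := nb hy hθ0 hθ1
  obtain ⟨z, hz⟩ : ∃ z, z = y / (1 + θ) := ⟨_, rfl⟩
  have hzy : z * (1 + θ) = y := by rw [hz]; field_simp
  rw [← hz] at b3 b4 h1 ⊢
  have hz0 : 0 < z := by linarith
  obtain ⟨a0, ha0'⟩ := exists_SG (n := n) (β := β) (y := y) (V := v) hn hβ0 hy
    (by linarith) hv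
  have s1 := sl_bd hn hβ hy hD0 hv1 hW (by linarith) (by linarith) (hap y (by linarith)
    (by linarith)) le_rfl (by linarith) ha0'
  have s2 := sl_bd hn hβ hy hD0 hv1 hW b3 (by linarith) (hap _ b3 (by linarith)) le_rfl
    (by linarith) h1
  have hW0 : 0 ≤ W := by
    have h5 : 0 ≤ W * (y / 2) ^ 2 := (abs_nonneg _).trans s1
    by_contra hneg
    push Not at hneg
    have : W * (y / 2) ^ 2 < 0 := mul_neg_of_neg_of_pos hneg (by positivity)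
    linarith
  have hWz : W * (y / 2) ^ 2 ≤ W * z ^ 2 :=
    mul_le_mul_of_nonneg_left (pow_le_pow_left₀ (by positivity) b3 2) hW0
  have hz3 : (y / 2) ^ 3 ≤ z ^ 3 := pow_le_pow_left₀ (by positivity) b3 3
  have hz2 : (y / 2) ^ 2 ≤ z ^ 2 := pow_le_pow_left₀ (by positivity) b3 2
  have e4 : (y / 2) ^ 2 = 1 / 4 * y ^ 2 := by ring
  have hz3' : z ^ 3 ≤ y ^ 3 := pow_le_pow_left₀ hz0.le b4 3
  have hz2' : z ^ 2 ≤ y ^ 2 := pow_le_pow_left₀ hz0.le b4 2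
  have hz6' : z ^ 6 ≤ y ^ 6 := pow_le_pow_left₀ hz0.le b4 6
  have hDy : D * y ^ 3 ≤ 1 / 8 * y ^ 3 := mul_le_mul_of_nonneg_right hD1 hy3.le
  have m1 : D * (y / 2) ^ 3 ≤ D * z ^ 3 := mul_le_mul_of_nonneg_left hz3 hD0.le
  have m2 : D * z ^ 3 ≤ D * y ^ 3 := mul_le_mul_of_nonneg_left hz3' hD0.le
  have m3 : S' * z ^ 2 ≤ S' * y ^ 2 := mul_le_mul_of_nonneg_left hz2' hS'.le
  have m4 : S * (y / 2) ^ 2 ≤ S * z ^ 2 := mul_le_mul_of_nonneg_left hz2 hS0.le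
  have m5 : G * z ^ 6 ≤ G * y ^ 6 := mul_le_mul_of_nonneg_left hz6' hG
  have e1 : D * (y / 2) ^ 3 = 1 / 8 * (D * y ^ 3) := by ring
  have e2 : S * (y / 2) ^ 2 = 1 / 4 * (S * y ^ 2) := by ring
  have e3 : (y / 2) ^ 3 = 1 / 8 * y ^ 3 := by ring
  rw [e3] at hz3
  rw [e1] at m1
  rw [e2] at m4
  have k1 := hLD z (by linarith) (by linarith) v (by linarith) (by linarith [e4]) am a0 h1
    (by rw [hzy]; exact ha0') (s2.trans hWz) (s1.trans hWz)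
  rw [hzy] at k1
  have k2 := hKL z (by linarith) (by linarith) v (by linarith) (by linarith)
    (a - δ) (by linarith) (by linarith) am h1 h2 ((hap z b3 (by linarith)).mono (by linarith))
  linarith

end one

end Vale.Agent.P146.H178
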