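import Vale.Agent.P146.H178.KDiffA

set_option linter.all false

/-!
# P146: the links of the single amplitude law

Parameters `sg`, `lam`, `η` (functions of `n` and of the exponent): modulated standard deviation,
parameter and clip of the amplitude.
-/

open MeasureTheory Set Filter Topology

namespace Vale.Agent.P146.H178

open Vale.Agent.P146.H9 (Phn KV)
open Vale.Agent.P146.H529 (SG Fsk cc link_up_num link_dn_num link_err2)
open Vale.Agent.P146.H425 (KL)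

/-- The relative entropy of the single amplitude law at `(y, V)`, the slope `a`. -/
noncomputable def Ka1 (β : ℝ) (sg lam η : ℕ → ℝ → ℝ) (n : ℕ) (y V a : ℝ) : ℝ :=
  KL (Fsk n Unit Unit β (fun _ => 1) (fun _ => √(V - sg n y ^ 2)) (lam n y) (sg n y) (η n y)
    (cc n β (sg n y) a)) y

/-- The sizes of the parameters. -/
def AmpOK (x ce e : ℝ) (sg lam η : ℕ → ℝ → ℝ) : Prop := ∀ A : ℝ, 1 ≤ A →
  ∀ᶠ n : ℕ in atTop, ∀ y : ℝ, (n : ℝ) ^ (-(1 / 6) + e) ≤ A * y → y ≤ 1 / 32 →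
    0 < sg n y ∧ sg n y ^ 2 ≤ (n : ℝ) ^ (-x) * y ^ 3 ∧ 1 ≤ lam n y ∧ 0 < η n y ∧
      η n y ≤ (n : ℝ) ^ (-ce) ∧ 1 ≤ lam n y * η n y

/-- the common error -/
lemma link_err3 {b e g ch ce x w : ℝ} (hb : 0 < b) (h1 : ch + g < 6 * e)
    (h2 : g + ch + w < x + ce) {A : ℝ} (hA : 1 ≤ A) :
    ∀ᶠ n : ℕ in atTop, ∀ y z s η : ℝ, (n : ℝ) ^ (-(1 / 6) + e) ≤ A * y → y ≤ 1 →
      0 ≤ z → z ≤ 2 * y → s ^ 2 ≤ (n : ℝ) ^ (-x) * z ^ 3 → 0 ≤ η → η ≤ (n : ℝ) ^ (-ce) →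
      60 / (n : ℝ) ^ (-ch) * (1 + Real.log n + n * y * s ^ 2 * η * ((n : ℝ) ^ w * y ^ 2) / b) ≤
        (n : ℝ) ^ (1 - g) * y ^ 6 := by
  obtain ⟨r, hr⟩ : ∃ r, r = min ((6 * e - (ch + g)) / 12) ((x + ce - (g + ch + w)) / 2) :=
    ⟨_, rfl⟩
  have hr0 : 0 < r := by
    rw [hr]
    exact lt_min (by linarith) (by linarith)
  have hr1 : r ≤ (6 * e - (ch + g)) / 12 := by rw [hr]; exact min_le_left _ _
  have hr2 : r ≤ (x + ce - (g + ch + w)) / 2 := by rw [hr]; exact min_le_right _ _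
  filter_upwards [link_err2 (b := b) (e := e - r) (k := x - w - r) (ce := ce) hb
    (show ch + g < 6 * (e - r) by linarith) (by linarith : g + ch < x - w - r + ce),
    ev_pow hr0 (max A 8), eventually_ge_atTop 1] with n h1' h3 hn y z s η hy hy1 hz0 hz hs hη0 hη
  have hN1 : (1 : ℝ) ≤ n := by exact_mod_cast hn
  have hN : (0 : ℝ) < n := by linarith
  have hx0 : 0 < (n : ℝ) ^ (-(1 / 6) + e) := Real.rpow_pos_of_pos hN _
  have hy0 : 0 < y := by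
    by_contra h
    push Not at h
    have : A * y ≤ 0 := mul_nonpos_of_nonneg_of_nonpos (by linarith) h
    linarith
  refine h1' y s η _ ?_ hy1 hη0 hη (by positivity) ?_
  · have e1 : (n : ℝ) ^ (-(1 / 6) + e) = (n : ℝ) ^ (-(1 / 6) + (e - r)) * (n : ℝ) ^ r := by
      rw [← Real.rpow_add hN]
      congr 1
      ring
    have h4 : A ≤ (n : ℝ) ^ r := (le_max_left _ _).trans h3
    have h5 : (n : ℝ) ^ (-(1 / 6) + (e - r)) * (n : ℝ) ^ r ≤ (n : ℝ) ^ r * y := by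
      rw [← e1]
      exact hy.trans (mul_le_mul_of_nonneg_right h4 hy0.le)
    have h6 : (n : ℝ) ^ (-(1 / 6) + (e - r)) ≤ y := by
      rw [mul_comm] at h5
      exact le_of_mul_le_mul_left h5 (Real.rpow_pos_of_pos hN _)
    linarith
  · have h4 : (8 : ℝ) ≤ (n : ℝ) ^ r := (le_max_right _ _).trans h3
    have h5 : z ^ 3 ≤ (2 * y) ^ 3 := pow_le_pow_left₀ hz0 hz 3
    have h6 : s ^ 2 ≤ (n : ℝ) ^ (-x) * (2 * y) ^ 3 :=
      hs.trans (mul_le_mul_of_nonneg_left h5 (Real.rpow_pos_of_pos hN _).le)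
    have e2 : (n : ℝ) ^ (-(x - w - r)) = (n : ℝ) ^ r * ((n : ℝ) ^ (-x) * (n : ℝ) ^ w) := by
      rw [← Real.rpow_add hN, ← Real.rpow_add hN]
      congr 1
      ring
    rw [e2]
    have h7 : s ^ 2 * ((n : ℝ) ^ w * y ^ 2) ≤ (n : ℝ) ^ (-x) * (2 * y) ^ 3 * ((n : ℝ) ^ w * y ^ 2) :=
      mul_le_mul_of_nonneg_right h6 (by positivity)
    refine h7.trans ?_
    have e3 : (n : ℝ) ^ (-x) * (2 * y) ^ 3 * ((n : ℝ) ^ w * y ^ 2) =
        8 * ((n : ℝ) ^ (-x) * (n : ℝ) ^ w * y ^ 5) := by ring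
    have e4 : (n : ℝ) ^ r * ((n : ℝ) ^ (-x) * (n : ℝ) ^ w) * y ^ 5 =
        (n : ℝ) ^ r * ((n : ℝ) ^ (-x) * (n : ℝ) ^ w * y ^ 5) := by ring
    rw [e3, e4]
    exact mul_le_mul_of_nonneg_right h4 (by positivity)

/-- the field exceeds its modulated part -/
lemma sg_lt {x d A : ℝ} (hx : d < x) (hA : 1 ≤ A) : ∀ᶠ n : ℕ in atTop, ∀ y z V s : ℝ, 0 < y →
    0 ≤ z → z ≤ 2 * y → (n : ℝ) ^ (-d) * y ^ 3 ≤ A * V → s ^ 2 ≤ (n : ℝ) ^ (-x) * z ^ 3 →
      s ^ 2 < V := by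
  filter_upwards [ev_neg (sub_pos.2 hx) (show 0 < 1 / (16 * A) by positivity),
    eventually_ge_atTop 1] with n h1 hn y z V s hy hz0 hz hV hs
  have hN1 : (1 : ℝ) ≤ n := by exact_mod_cast hn
  have hN : (0 : ℝ) < n := by linarith
  have hA0 : 0 < A := by linarith
  have h5 : z ^ 3 ≤ (2 * y) ^ 3 := pow_le_pow_left₀ hz0 hz 3
  have h6 : s ^ 2 ≤ (n : ℝ) ^ (-x) * (2 * y) ^ 3 :=
    hs.trans (mul_le_mul_of_nonneg_left h5 (Real.rpow_pos_of_pos hN _).le)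
  have e1 : (n : ℝ) ^ (-x) = (n : ℝ) ^ (-(x - d)) * (n : ℝ) ^ (-d) := by
    rw [← Real.rpow_add hN]
    congr 1
    ring
  have h7 : (n : ℝ) ^ (-(x - d)) * ((n : ℝ) ^ (-d) * (2 * y) ^ 3) ≤
      1 / (16 * A) * ((n : ℝ) ^ (-d) * (2 * y) ^ 3) :=
    mul_le_mul_of_nonneg_right h1 (by positivity)
  have e2 : 1 / (16 * A) * ((n : ℝ) ^ (-d) * (2 * y) ^ 3) = (n : ℝ) ^ (-d) * y ^ 3 / A / 2 := by
    field_simp
    ring
  have h8 : (n : ℝ) ^ (-d) * y ^ 3 / A ≤ V := by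
    rw [div_le_iff₀ hA0]
    linarith
  have h9 : 0 < (n : ℝ) ^ (-d) * y ^ 3 / A := by positivity
  rw [e1, mul_assoc] at h6
  linarith

/-- the facts about the parameters used by the links -/
lemma link_num {V y z s lam η : ℝ} (hy : 0 < y) (hy1 : y ≤ 1 / 64) (hV2 : V ≤ y ^ 2)
    (hsV : s ^ 2 < V) : V = ∑ _l : Unit, √(V - s ^ 2) ^ 2 + s ^ 2 ∧ V ≤ 1 := by
  constructor
  · rw [Real.sq_sqrt (by linarith)]
    simp
  · have : y ^ 2 ≤ 1 ^ 2 := pow_le_pow_left₀ hy.le (by linarith) 2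
    linarith

/-- **The upper link of the single amplitude law.** -/
theorem linkUp1 {β e ch g w d x ce : ℝ} {sg lam η : ℕ → ℝ → ℝ} (hβ : 1 < β) (hch : 0 < ch)
    (hce : 0 < ce) (h1 : ch + g < 6 * e) (h2 : g + ch + w < x + ce) (hx : d < x)
    (hP : AmpOK x ce e sg lam η) : LinkUp β e ch g w d (Ka1 β sg lam η) := by
  intro A hA
  have hβ0 : 0 < β := by linarith
  filter_upwards [link_err3 (b := β) hβ0 h1 h2 hA, sg_lt hx hA, hP A hA,
    ev_neg hch (show (0 : ℝ) < 1 by norm_num), ev_neg hce (show (0 : ℝ) < 1 / 2 by norm_num),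
    eventually_ge_atTop 1] with n g1 g2 g3 g4 g5 hn y hy hy1 V hV1 hV2 a a' ha ha' hA1 hA2
  have hN1 : (1 : ℝ) ≤ n := by exact_mod_cast hn
  have hN : (0 : ℝ) < n := by linarith
  have hx0 : 0 < (n : ℝ) ^ (-(1 / 6) + e) := Real.rpow_pos_of_pos hN _
  have hA0 : 0 < A := by linarith
  have hy0 : 0 < y := by
    by_contra h
    push Not at h
    have : A * y ≤ 0 := mul_nonpos_of_nonneg_of_nonpos (by linarith) h
    linarith
  obtain ⟨θ, hθ⟩ : ∃ θ, θ = (n : ℝ) ^ (-ch) := ⟨_, rfl⟩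
  have hθ0 : 0 < θ := by rw [hθ]; positivity
  rw [← hθ] at ha' g4 ⊢
  obtain ⟨b1, b2, -, -⟩ := nb hy0 hθ0 g4
  obtain ⟨z, hz⟩ : ∃ z, z = y * (1 + θ) := ⟨_, rfl⟩
  have hyz : y ≤ z := by
    have : y * (1 + θ) = y + y * θ := by ring
    have : 0 < y * θ := by positivity
    linarith
  rw [← hz] at b1 b2 ha' ⊢
  have hz0 : 0 < z := by linarith
  obtain ⟨p1, p2, p3, p4, p5, p6⟩ := g3 z (hy.trans (mul_le_mul_of_nonneg_left hyz hA0.le))
    (by linarith)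
  have hsV := g2 y z V (sg n z) hy0 hz0.le b2 hV1 p2
  obtain ⟨e1, e2⟩ := link_num (z := z) (lam := lam n z) (η := η n z) hy0 hy1 hV2 hsV
  have k1 := link_up_num (LB := Unit) (LF := Unit) (cB := fun _ => 1)
    (cF := fun _ => √(V - sg n z ^ 2)) (s := sg n z) (lam := lam n z) (η := η n z) (θ := θ)
    (a := a) (a' := a') (A := (n : ℝ) ^ w * y ^ 2) hn hβ0 (by simp) e1 e2 p1 p3 p4
    (by linarith) p6 hy0 hθ0 g4 (by rw [← hz]; linarith) ha (by rw [← hz]; exact ha') hA1 hA2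
  have k2 := g1 y z (sg n z) (η n z) hy (by linarith) hz0.le b2 p2 p4.le p5
  rw [← hθ] at k2
  rw [← hz] at k1
  exact k1.trans (add_le_add_right k2 _)

/-- **The lower link of the single amplitude law.** -/
theorem linkDn1 {β e ch g w d x ce : ℝ} {sg lam η : ℕ → ℝ → ℝ} (hβ : 1 < β) (hch : 0 < ch)
    (hce : 0 < ce) (h1 : ch + g < 6 * e) (h2 : g + ch + w < x + ce) (hx : d < x)
    (hP : AmpOK x ce e sg lam η) : LinkDn β e ch g w d (Ka1 β sg lam η) := by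
  intro A hA
  have hβ0 : 0 < β := by linarith
  filter_upwards [link_err3 (b := β) hβ0 h1 h2 hA, sg_lt hx hA, hP A hA,
    ev_neg hch (show (0 : ℝ) < 1 by norm_num), ev_neg hce (show (0 : ℝ) < 1 / 2 by norm_num),
    eventually_ge_atTop 1] with n g1 g2 g3 g4 g5 hn y hy hy1 V hV1 hV2 a a' ha ha' hA1 hA2
  have hN1 : (1 : ℝ) ≤ n := by exact_mod_cast hn
  have hN : (0 : ℝ) < n := by linarith
  have hx0 : 0 < (n : ℝ) ^ (-(1 / 6) + e) := Real.rpow_pos_of_pos hN _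
  have hA0 : 0 < A := by linarith
  have hy0 : 0 < y := by
    by_contra h
    push Not at h
    have : A * y ≤ 0 := mul_nonpos_of_nonneg_of_nonpos (by linarith) h
    linarith
  obtain ⟨θ, hθ⟩ : ∃ θ, θ = (n : ℝ) ^ (-ch) := ⟨_, rfl⟩
  have hθ0 : 0 < θ := by rw [hθ]; positivity
  rw [← hθ] at ha' g4 ⊢
  obtain ⟨b1, b2, -, -⟩ := nb hy0 hθ0 g4
  obtain ⟨p1, p2, p3, p4, p5, p6⟩ := g3 y hy (by linarith)
  have hsV := g2 y y V (sg n y) hy0 hy0.le (by linarith) hV1 p2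
  obtain ⟨e1, e2⟩ := link_num (z := y) (lam := lam n y) (η := η n y) hy0 hy1 hV2 hsV
  have k1 := link_dn_num (LB := Unit) (LF := Unit) (cB := fun _ => 1)
    (cF := fun _ => √(V - sg n y ^ 2)) (s := sg n y) (lam := lam n y) (η := η n y) (θ := θ)
    (a := a) (a' := a') (A := (n : ℝ) ^ w * y ^ 2) hn hβ0 (by simp) e1 e2 p1 p3 p4
    (by linarith) p6 hy0 hθ0 g4 (by linarith) ha ha' hA1 hA2
  have k2 := g1 y y (sg n y) (η n y) hy (by linarith) hy0.le (by linarith) p2 p4.le p5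
  rw [← hθ] at k2
  exact k1.trans (add_le_add_right k2 _)

end Vale.Agent.P146.H178
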