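import Vale.Agent.P146.H178.End1
import Vale.Agent.P146.H877.ContigK
import Vale.Agent.P146.H260.Dev4
import Vale.Agent.P146.H695.Sub2

set_option linter.all false

/-!
# P146: from the response of the Sherrington-Kirkpatrick model to the lower law

With `At β n x v = (2 β / (n v x)) (LPhi n β x v - LPhi n β x 0)` of `H877.ContigK`:
`Resp b₁ (At β)` with `b₁ < 2 / 17` gives the lower law of the exponential moments for
`x ≥ n^(-1/6+e)`, and `Var F_n ≥ n^γ` for all `γ < 1 / 3`.
-/

open MeasureTheory ProbabilityTheory Filter Topology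

namespace Vale.Agent.P146.H178

open Vale.Agent.P146 Vale.Agent.P146.H605

/-- The contiguity bound of the Sherrington-Kirkpatrick model. -/
theorem contig_sk {β : ℝ} (hβ : 1 < β) : Contig β (H877.kap β) (H877.At β) :=
  H877.contig_four hβ.le

lemma kap_eq (β : ℝ) (n : ℕ) (x : ℝ) : H877.kap β n x = Real.log (∫ g, Real.exp (x *
    (freeEnergy n β g - ∫ h, freeEnergy n β h ∂(disorder n))) ∂(disorder n)) := rfl

/-- The lower law for `x ≥ n^(-b+e)` in the two notations. -/
lemma lobK_iff (β b : ℝ) : LobK (H877.kap β) b ↔ H260.Dev.Lob β b := Iff.rfl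

/-- **The lower law of the exponential moments from the response.** -/
theorem lob_of_resp {β : ℝ} (hβ : 1 < β) {b₁ : ℝ} (h0 : 0 < b₁) (h1 : b₁ < 2 / 17)
    (hR : Resp b₁ (H877.At β)) : H260.Dev.Lob β (1 / 6) :=
  (lobK_iff β (1 / 6)).1 (lobK_of_resp (by linarith) h1 h0 (H877.kap_nonneg β) (contig_sk hβ) hR
    ((lobK_iff β (2 / 17)).2 (H695.Sub.lob17 hβ)))

/-- **The variance of the free energy from the response.** -/
theorem lowV_of_resp {β : ℝ} (hβ : 1 < β) {b₁ : ℝ} (h0 : 0 < b₁) (h1 : b₁ < 2 / 17)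
    (hR : Resp b₁ (H877.At β)) : H695.LowV β (1 / 3) := by
  have h := H695.Sub.lowV_of_lob (by norm_num) (by norm_num) (lob_of_resp hβ h0 h1 hR)
  have e : (2 * (1 / 6) : ℝ) = 1 / 3 := by norm_num
  rwa [e] at h

end Vale.Agent.P146.H178
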