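import Vale.Agent.P146.H178.FlowH
import Vale.Agent.P146.H178.End2

set_option linter.all false

/-!
# P146: the response on `n^(-q+e) ≤ x`, `q ≤ 1 / 6`

The same steps as for `q = 1 / 6`: flow, exponential moments, variance `Var F_n ≥ n^γ`, `γ < 2 q`.
-/

open MeasureTheory ProbabilityTheory Filter Topology Set

namespace Vale.Agent.P146.H178

open Vale.Agent.P146 Vale.Agent.P146.H605 Vale.Agent.P146.H122

/-- The lower bound of the secant response on `n^(-q+e) ≤ x ≤ n^(-b₁)`. -/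
def RespQ (q b₁ : ℝ) (At : ℕ → ℝ → ℝ → ℝ) : Prop := ∀ e : ℝ, 0 < e → ∃ s d : ℝ,
  0 < s ∧ 0 < d ∧ s + d ≤ e ∧ ∀ᶠ n : ℕ in atTop, ∀ x : ℝ,
    (n : ℝ) ^ (-q + e) ≤ x → x ≤ (n : ℝ) ^ (-b₁) →
      (n : ℝ) ^ (-s) * x ^ 2 ≤ At n x ((n : ℝ) ^ (-d) * x ^ 3) - 1

lemma respQ_iff (b₁ : ℝ) (At : ℕ → ℝ → ℝ → ℝ) : RespQ (1 / 6) b₁ At ↔ Resp b₁ At := Iff.rfl

/-- **The lower law for `x ≥ n^(-q+e)`.** -/
theorem lobK_of_respQ {q β b b₁ : ℝ} (hq : q ≤ 1 / 6) (hβ : 0 < β) (hb₁ : b₁ < b) (hb₁0 : 0 < b₁)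
    {κ : ℕ → ℝ → ℝ} {At : ℕ → ℝ → ℝ → ℝ} (h0 : ∀ n x, 0 ≤ κ n x) (hC : Contig β κ At)
    (hR : RespQ q b₁ At) (hL : LobK κ b) : LobK κ q := by
  intro e he
  obtain ⟨e1, he1⟩ : ∃ e1, e1 = min e ((b - b₁) / 2) := ⟨_, rfl⟩
  have he1e : e1 ≤ e := by rw [he1]; exact min_le_left _ _
  have he1b : e1 ≤ (b - b₁) / 2 := by rw [he1]; exact min_le_right _ _
  have he10 : 0 < e1 := by rw [he1]; exact lt_min he (by linarith)
  obtain ⟨δ, hδ, hLn⟩ := hL e1 he10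
  obtain ⟨C, hC0, hCn⟩ := hC
  obtain ⟨s, d, hs, hd, hsd0, hRn⟩ := hR (min (e / 2) b₁) (lt_min (by positivity) hb₁0)
  have hsd : s + d ≤ e / 2 := hsd0.trans (min_le_left _ _)
  have hsd1 : s + d ≤ b₁ := hsd0.trans (min_le_right _ _)
  refine ⟨δ, hδ, ?_⟩
  have ev2 : ∀ᶠ n : ℕ in atTop, (n : ℝ) ^ (-b₁) ≤ 1 / 4 :=
    ((tendsto_rpow_neg_atTop hb₁0).comp
      (tendsto_natCast_atTop_atTop (R := ℝ))).eventually_le_const (by norm_num)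
  filter_upwards [hLn, hRn, ev2, ev_pow (show 0 < e / 2 by positivity) (max 2 (512 * β)),
    ev_log (show 0 < 5 * e by positivity) (2 * C), eventually_ge_atTop 1,
    ev_pow hb₁0 (8 * β * C)]
    with n g1 g2 g3 g4 g5 g6 g7 x hx hxδ
  have hn1 : (1 : ℝ) ≤ n := by exact_mod_cast g6
  have hn0 : (0 : ℝ) < n := by linarith
  have hx0 : 0 < x := lt_of_lt_of_le (Real.rpow_pos_of_pos hn0 _) hx
  rcases le_total ((n : ℝ) ^ (-b₁)) x with hc | hc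
  · -- the known range
    have h1 : (n : ℝ) ^ (-b + e1) ≤ x :=
      (Real.rpow_le_rpow_of_exponent_le hn1 (by linarith)).trans hc
    refine le_trans ?_ (g1 x h1 hxδ)
    exact mul_le_mul_of_nonneg_right (Real.rpow_le_rpow_of_exponent_le hn1 (by linarith))
      (by positivity)
  · -- the new range
    obtain ⟨y, hy⟩ : ∃ y, y = x / 2 := ⟨_, rfl⟩
    have hxy : x = 2 * y := by rw [hy]; ring
    have hy0 : 0 < y := by rw [hy]; positivity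
    have hy1' : (n : ℝ) ^ (-q + e / 2) ≤ y := by
      have h2 : (2 : ℝ) ≤ (n : ℝ) ^ (e / 2) := (le_max_left _ _).trans g4
      have h3 : (n : ℝ) ^ (-q + e) = (n : ℝ) ^ (-q + e / 2) * (n : ℝ) ^ (e / 2) := by
        rw [← Real.rpow_add hn0]; congr 1; ring
      have h4 : 0 < (n : ℝ) ^ (-q + e / 2) := Real.rpow_pos_of_pos hn0 _
      rw [h3] at hx
      rw [hy, le_div_iff₀ (by norm_num)]
      nlinarith
    have hy1 : (n : ℝ) ^ (-q + min (e / 2) b₁) ≤ y :=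
      (Real.rpow_le_rpow_of_exponent_le hn1 (by linarith [min_le_left (e / 2) b₁])).trans hy1'
    have hy2 : y ≤ (n : ℝ) ^ (-b₁) := by rw [hy]; linarith
    have hy3 : y ≤ 1 / 4 := hy2.trans g3
    have hv0 : 0 < (n : ℝ) ^ (-d) * y ^ 3 := by positivity
    have hv1 : (n : ℝ) ^ (-d) * y ^ 3 ≤ 1 := by
      have h2 : (n : ℝ) ^ (-d) ≤ 1 := Real.rpow_le_one_of_one_le_of_nonpos hn1 (by linarith)
      have h3 : y ^ 3 ≤ 1 := pow_le_one₀ hy0.le (by linarith)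
      calc (n : ℝ) ^ (-d) * y ^ 3 ≤ 1 * 1 := by gcongr
        _ = 1 := by norm_num
    have h5 := hCn n g6 y _ hy0 hy3 hv0 hv1
    have h6 := g2 y hy1 hy2
    have h7 : y * n * ((n : ℝ) ^ (-d) * y ^ 3) / (4 * β) * ((n : ℝ) ^ (-s) * y ^ 2) ≤
        y * n * ((n : ℝ) ^ (-d) * y ^ 3) / (4 * β) *
          (At n y ((n : ℝ) ^ (-d) * y ^ 3) - 1) :=
      mul_le_mul_of_nonneg_left h6 (by positivity)
    have e1' : y * n * ((n : ℝ) ^ (-d) * y ^ 3) / (4 * β) * ((n : ℝ) ^ (-s) * y ^ 2) =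
        (n : ℝ) ^ (1 - d - s) * y ^ 6 / (4 * β) := by
      have : (n : ℝ) ^ (1 - d - s) = n * (n : ℝ) ^ (-d) * (n : ℝ) ^ (-s) := by
        rw [show (1 - d - s : ℝ) = 1 + (-d) + (-s) by ring, Real.rpow_add hn0,
          Real.rpow_add hn0, Real.rpow_one]
      rw [this]; ring
    rw [e1'] at h7
    have h8 : (n : ℝ) ^ (1 - e / 2) * y ^ 6 / (4 * β) ≤ (n : ℝ) ^ (1 - d - s) * y ^ 6 / (4 * β) := by
      have : (n : ℝ) ^ (1 - e / 2) ≤ (n : ℝ) ^ (1 - d - s) :=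
        Real.rpow_le_rpow_of_exponent_le hn1 (by linarith)
      gcongr
    have h9 := h0 n y
    have h20 := quad_term hn1 hβ hy0.le hy2 (show -d + s ≤ 0 ∨ -d + s ≤ b₁ from
      Or.inr (by linarith)) g7 hb₁0
    -- `κ (2y) ≥ n^(1-e/2) y^6/(4β) - 2C(1 + log n)`
    have h10 : (n : ℝ) ^ (1 - e / 2) * y ^ 6 / (4 * β) - 2 * C * (1 + Real.log n) ≤ κ n x := by
      rw [hxy]
      have e2 : (n : ℝ) ^ (1 - d - s) * y ^ 6 / (4 * β) =
          2 * ((n : ℝ) ^ (1 - d - s) * y ^ 6 / (8 * β)) := by ring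
      have e3 : (n : ℝ) ^ (1 - e / 2) * y ^ 6 / (4 * β) ≤
          2 * ((n : ℝ) ^ (1 - d - s) * y ^ 6 / (8 * β)) := by rw [← e2]; exact h8
      rw [e2] at h7
      linarith
    refine le_trans ?_ h10
    -- `x^6 = 64 y^6`
    have h11 : (n : ℝ) ^ (1 - e) * x ^ 6 = (n : ℝ) ^ (1 - e) * (64 * y ^ 6) := by
      rw [hxy]; ring
    have h12 : (n : ℝ) ^ (5 * e) ≤ (n : ℝ) ^ (1 - e) * x ^ 6 := by
      have h13 : ((n : ℝ) ^ (-q + e)) ^ 6 ≤ x ^ 6 :=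
        pow_le_pow_left₀ (by positivity) hx 6
      have h14 : (n : ℝ) ^ (5 * e) ≤ (n : ℝ) ^ (1 - e) * ((n : ℝ) ^ (-q + e)) ^ 6 := by
        rw [← Real.rpow_natCast, ← Real.rpow_mul hn0.le, ← Real.rpow_add hn0]
        refine Real.rpow_le_rpow_of_exponent_le hn1 ?_
        push_cast
        linarith
      exact h14.trans (mul_le_mul_of_nonneg_left h13 (by positivity))
    have h15 : 2 * ((n : ℝ) ^ (1 - e) * (64 * y ^ 6)) ≤ (n : ℝ) ^ (1 - e / 2) * y ^ 6 / (4 * β) := by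
      have h16 : 512 * β ≤ (n : ℝ) ^ (e / 2) := (le_max_right _ _).trans g4
      have h17 : (n : ℝ) ^ (1 - e / 2) = (n : ℝ) ^ (1 - e) * (n : ℝ) ^ (e / 2) := by
        rw [← Real.rpow_add hn0]; congr 1; ring
      rw [h17, le_div_iff₀ (by positivity)]
      have h18 : 0 < (n : ℝ) ^ (1 - e) * y ^ 6 := by positivity
      nlinarith
    rw [← h11] at h15
    linarith


/-- The input of the flow down to `n^(-q+e)`. -/
def FlowInQ (q β b₁ : ℝ) (Φ K : ℕ → ℝ → ℝ → ℝ) : Prop := ∀ e : ℝ, 0 < e → ∃ s s' d0 d : ℝ,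
  0 < s ∧ s < s' ∧ 0 < d0 ∧ d0 < d ∧ s' + d ≤ e ∧ StartH β b₁ d0 s d Φ ∧
    KDiffH β b₁ (1 / 6 - q + e) s s' d Φ K

/-- **The response for `n^(-q+e) ≤ x ≤ n^(-b₁)`.** -/
theorem resp_of_kdiffQ {q β b₁ : ℝ} (hq : q ≤ 1 / 6) (hβ : 0 < β) (hb₁ : 0 < b₁) {Φ K : ℕ → ℝ → ℝ → ℝ}
    (cv : ∀ n : ℕ, 1 ≤ n → ∀ x : ℝ, 0 < x → x ≤ 1 / 2 → ConcaveOn ℝ (Ici 0) (Φ n x))
    (dx : ∀ n : ℕ, 1 ≤ n → ∀ x : ℝ, 0 < x → x ≤ 1 / 2 → ∀ v : ℝ, 0 ≤ v →
      HasDerivAt (fun y => Φ n y v) (K n x v / x ^ 2) x)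
    (hF : FlowInQ q β b₁ Φ K) : RespQ q b₁ (At β Φ) := by
  intro e he
  obtain ⟨s, s', d0, d, hs, hss, hd0, hdd, hsd, hS, hK⟩ := hF e he
  have hd : 0 < d := hd0.trans hdd
  refine ⟨s', d, by linarith, hd, hsd, ?_⟩
  obtain ⟨ι, hι⟩ : ∃ ι, ι = 3 * (s' - s) := ⟨_, rfl⟩
  have hι0 : 0 < ι := by rw [hι]; linarith
  have ev2 : ∀ᶠ n : ℕ in atTop, (n : ℝ) ^ (-b₁) ≤ 1 / 8 :=
    ((tendsto_rpow_neg_atTop hb₁).comp
      (tendsto_natCast_atTop_atTop (R := ℝ))).eventually_le_const (by norm_num)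
  have ev3 : ∀ᶠ n : ℕ in atTop, (n : ℝ) ^ (-(d - d0)) ≤ 1 / 256 :=
    ((tendsto_rpow_neg_atTop (sub_pos.2 hdd)).comp
      (tendsto_natCast_atTop_atTop (R := ℝ))).eventually_le_const (by norm_num)
  filter_upwards [hS, hK ι hι0, ev2, ev3, eventually_ge_atTop 1] with n g1 g2 g3 g5 g4 x hx hx1
  have hn1 : (1 : ℝ) ≤ n := by exact_mod_cast g4
  have hn0 : (0 : ℝ) < n := by linarith
  obtain ⟨y1, κ, hy1l, hy1u, hκ1, hκ2, g1, g6⟩ := g1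
  have eq1 : (-(1 / 6) + (1 / 6 - q + e) : ℝ) = -q + e := by ring
  rw [eq1] at g2
  obtain ⟨x0, hx0⟩ : ∃ x0, x0 = (n : ℝ) ^ (-q + e) := ⟨_, rfl⟩
  obtain ⟨δ, hδ⟩ : ∃ δ, δ = (n : ℝ) ^ (-d) := ⟨_, rfl⟩
  obtain ⟨σ, hσ⟩ : ∃ σ, σ = (n : ℝ) ^ (-s) := ⟨_, rfl⟩
  have hb0 : 0 < (n : ℝ) ^ (-b₁) := Real.rpow_pos_of_pos hn0 _
  have hy10 : 0 < y1 := lt_of_lt_of_le hb0 hy1l
  have hy12 : y1 ≤ 1 / 2 := by linarith
  have hx00 : 0 < x0 := by rw [hx0]; exact Real.rpow_pos_of_pos hn0 _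
  have hδ0 : 0 < δ := by rw [hδ]; exact Real.rpow_pos_of_pos hn0 _
  have hσ0 : 0 < σ := by rw [hσ]; exact Real.rpow_pos_of_pos hn0 _
  have hκ0 : 0 < κ := by linarith
  have hδd : 256 * δ ≤ (n : ℝ) ^ (-d0) := by
    have h1 : (n : ℝ) ^ (-d) = (n : ℝ) ^ (-(d - d0)) * (n : ℝ) ^ (-d0) := by
      rw [← Real.rpow_add hn0]; congr 1; ring
    have h2 : 0 < (n : ℝ) ^ (-d0) := Real.rpow_pos_of_pos hn0 _
    rw [hδ, h1]
    nlinarith
  rw [← hδ, ← hσ] at g1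
  rw [← hx0] at hx
  have hxy1 : x ≤ y1 := hx1.trans hy1l
  have hxp : 0 < x := lt_of_lt_of_le hx00 hx
  obtain ⟨C, hC⟩ : ∃ C, C = 2 * (1 + ι) := ⟨_, rfl⟩
  obtain ⟨ℓ, hℓ⟩ : ∃ ℓ, ℓ = σ * y1 ^ (-(2 * ι)) := ⟨_, rfl⟩
  have hℓ0 : 0 < ℓ := by rw [hℓ]; exact mul_pos hσ0 (Real.rpow_pos_of_pos hy10 _)
  -- the barrier
  have hLx : ∀ z : ℝ, 0 < z → ℓ * z ^ C = σ * z ^ 2 * (z / y1) ^ (2 * ι) := by
    intro z hz
    rw [hℓ, hC, show (2 * (1 + ι) : ℝ) = (2 : ℕ) + 2 * ι by push_cast; ring, Real.rpow_add hz,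
      Real.rpow_natCast, Real.div_rpow hz.le hy10.le, Real.rpow_neg hy10.le]
    field_simp
  have hLup : ∀ z : ℝ, 0 < z → z ≤ y1 → ℓ * z ^ C ≤ σ * z ^ 2 := by
    intro z hz hzy
    rw [hLx z hz]
    have h1 : (z / y1) ^ (2 * ι) ≤ 1 :=
      Real.rpow_le_one (by positivity) (by rw [div_le_one hy10]; exact hzy) (by linarith)
    have h2 : 0 ≤ σ * z ^ 2 := by positivity
    nlinarith
  have hLlo : ∀ z : ℝ, x0 ≤ z → (n : ℝ) ^ (-s') * z ^ 2 ≤ ℓ * z ^ C := by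
    intro z hz
    have hz0 : 0 < z := lt_of_lt_of_le hx00 hz
    rw [hLx z hz0]
    have h1 : (n : ℝ) ^ (-(1 / 6) : ℝ) ≤ z / y1 := by
      rw [le_div_iff₀ hy10]
      refine le_trans ?_ hz
      have h0 : (n : ℝ) ^ (-(1 / 6) : ℝ) * y1 ≤ (n : ℝ) ^ (-(1 / 6) : ℝ) * 1 :=
        mul_le_mul_of_nonneg_left (by linarith) (Real.rpow_pos_of_pos hn0 _).le
      rw [mul_one] at h0
      refine h0.trans ?_
      rw [hx0]
      exact Real.rpow_le_rpow_of_exponent_le hn1 (by linarith)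
    have h2 : ((n : ℝ) ^ (-(1 / 6) : ℝ)) ^ (2 * ι) ≤ (z / y1) ^ (2 * ι) :=
      Real.rpow_le_rpow (by positivity) h1 (by linarith)
    have h3 : (n : ℝ) ^ (-s') ≤ σ * ((n : ℝ) ^ (-(1 / 6) : ℝ)) ^ (2 * ι) := by
      rw [hσ, ← Real.rpow_mul hn0.le, ← Real.rpow_add hn0]
      exact Real.rpow_le_rpow_of_exponent_le hn1 (by rw [hι]; linarith)
    have h4 : (n : ℝ) ^ (-s') ≤ σ * (z / y1) ^ (2 * ι) :=
      h3.trans (mul_le_mul_of_nonneg_left h2 hσ0.le)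
    have h5 : 0 ≤ z ^ 2 := by positivity
    nlinarith
  have hcb : (0 : ℝ) < 2 * β / n := by positivity
  have hsub : ∀ z ∈ Icc x0 y1, 0 < z ∧ z ≤ 1 / 2 := fun z hz =>
    ⟨lt_of_lt_of_le hx00 hz.1, hz.2.trans hy12⟩
  have hmono : MonotoneOn (fun z : ℝ => κ * (δ * z ^ 3)) (Icc x0 y1) := by
    intro a ha b hb hab
    have h1 : 0 ≤ a := (hsub a ha).1.le
    exact mul_le_mul_of_nonneg_left
      (mul_le_mul_of_nonneg_left (pow_le_pow_left₀ h1 hab 3) hδ0.le) hκ0.le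
  have key := flow_powH (Φ := Φ n) (K := K n) (V := fun z => 2 * (κ * (δ * z ^ 3)))
    (w := fun z => κ * (δ * z ^ 3)) (c := 2 * β / n) (x0 := x0) (y1 := y1) (ρ := 5 / 4)
    (η := 1 / 2) (ℓ := ℓ) (C := C) hx00 (by norm_num) (by norm_num) hcb hℓ0
    (fun z hz => cv n g4 z (hsub z hz).1 (hsub z hz).2)
    (fun z hz v hv => dx n g4 z (hsub z hz).1 (hsub z hz).2 v hv)
    (fun a ha b hb hab => by
      have := hmono ha hb hab
      simp only at this ⊢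
      linarith) hmono
    (fun z hz => by have := (hsub z hz).1; positivity)
    (fun z hz => by
      have h1 := (hsub z hz).1
      have : 0 < κ * (δ * z ^ 3) := by positivity
      linarith) ?_ ?_
  · have h1 := key x ⟨hx, hxy1⟩
    have hv : 0 < δ * x ^ 3 := by positivity
    have hv1 : δ * x ^ 3 ≤ κ * (δ * x ^ 3) := le_mul_of_one_le_left hv.le hκ1
    have h2 := At_anti hβ (cv n g4 x hxp (hxy1.trans hy12)) (V := δ * x ^ 3)
      (w := κ * (δ * x ^ 3)) (v := 2 * (κ * (δ * x ^ 3))) hv (by linarith) (hv.le.trans hv1)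
      (by linarith)
    rw [← hδ]
    unfold Asec at h2
    have h4 := hLlo x hx
    linarith
  · intro z hz y hy hzy hyz hist h1 h2
    have hz0 := (hsub z hz).1
    have hy0 := (hsub y hy).1
    have hyz3 : y ^ 3 ≤ 2 * z ^ 3 := by
      have h3 : y ^ 3 ≤ (5 / 4 * z) ^ 3 := pow_le_pow_left₀ hy0.le hyz 3
      have h4 : (5 / 4 * z) ^ 3 = 125 / 64 * z ^ 3 := by ring
      have h5 : 0 < z ^ 3 := by positivity
      linarith
    have hzy3 : z ^ 3 ≤ y ^ 3 := pow_le_pow_left₀ hz0.le hzy 3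
    have hz30 : 0 < z ^ 3 := by positivity
    have hy30 : 0 < y ^ 3 := by positivity
    have hv0 : 0 < κ * (δ * y ^ 3) := by positivity
    have hh : ∃ u ∈ Icc z (2 * z), 1 ≤ At β Φ n u (4 * (κ * (δ * y ^ 3))) := by
      refine hist_at hβ hδ0 hκ0 hκ2 hδd (fun z hz => cv n g4 z (hsub z hz).1 (hsub z hz).2) hx00
        hy hz0 hzy hyz (fun u hu => ?_) g6
      have h5 : 0 < ℓ * u ^ C := mul_pos hℓ0 (Real.rpow_pos_of_pos (hy0.trans_le hu.1) _)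
      have h6 := hist u hu
      unfold Asec
      linarith
    have hκδ : δ * y ^ 3 ≤ κ * (δ * y ^ 3) := le_mul_of_one_le_left (by positivity) hκ1
    have hδz : δ * z ^ 3 ≤ δ * y ^ 3 := mul_le_mul_of_nonneg_left hzy3 hδ0.le
    have hκδ2 : κ * (δ * y ^ 3) ≤ 64 * (δ * y ^ 3) :=
      mul_le_mul_of_nonneg_right hκ2 (by positivity)
    have hδz2 : δ * y ^ 3 ≤ δ * (2 * z ^ 3) := mul_le_mul_of_nonneg_left hyz3 hδ0.le
    have h3 := g2 z (by rw [← hx0]; exact hz.1) (hz.2.trans hy1u) (κ * (δ * y ^ 3))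
      (by rw [← hδ]; linarith) (by rw [← hδ]; linarith)
      (ℓ * z ^ C) (hLlo z hz.1) (by rw [← hσ]; exact hLup z hz0 hz.2) hh
      (by unfold Asec; linarith) (by unfold Asec; linarith)
    have h4 := mul_le_mul_of_nonneg_left h3 hcb.le
    refine h4.trans (le_of_eq ?_)
    rw [hC]
    field_simp
    ring
  · rw [hLx y1 hy10, div_self hy10.ne', Real.one_rpow, mul_one]
    unfold Asec at g1
    linarith


/-- **The lower law of the exponential moments from the response.** -/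
theorem lob_of_respQ {q β : ℝ} (hq : q ≤ 1 / 6) (hβ : 1 < β) {b₁ : ℝ} (h0 : 0 < b₁)
    (h1 : b₁ < 2 / 17) (hR : RespQ q b₁ (H877.At β)) : H260.Dev.Lob β q :=
  (lobK_iff β q).1 (lobK_of_respQ hq (by linarith) h1 h0 (H877.kap_nonneg β) (contig_sk hβ) hR
    ((lobK_iff β (2 / 17)).2 (H695.Sub.lob17 hβ)))

/-- **The variance of the free energy from the response.** -/
theorem lowV_of_respQ {q β : ℝ} (hq0 : 0 < q) (hq : q ≤ 1 / 6) (hβ : 1 < β) {b₁ : ℝ} (h0 : 0 < b₁)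
    (h1 : b₁ < 2 / 17) (hR : RespQ q b₁ (H877.At β)) : H695.LowV β (2 * q) :=
  H695.Sub.lowV_of_lob hq0 hq (lob_of_respQ hq hβ h0 h1 hR)

end Vale.Agent.P146.H178
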