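import Vale.Agent.P146.H178.End2
import Vale.Agent.P146.H695.Top
import Vale.Agent.P146.X7.H737_HF

set_option linter.all false

/-!
# P146: the order of the fluctuations from the response

All consequences of `Resp b₁ (H877.At β)`, `b₁ < 2 / 17`.
-/

open MeasureTheory ProbabilityTheory Filter Topology

namespace Vale.Agent.P146.H178

open Vale.Agent.P146 Vale.Agent.P146.H605

/-- The variance is at most `n ^ (1 / 3 + ε)`, and the fluctuations have exponential tails. -/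
lemma up_ev {β : ℝ} (hβ : 1 < β) {ε : ℝ} (hε : 0 < ε) : ∀ᶠ n : ℕ in atTop,
    Var[freeEnergy n β; disorder n] ≤ (n : ℝ) ^ (1 / 3 + ε) ∧
    (disorder n).real {g | (n : ℝ) ^ (1 / 6 + ε) ≤
      |freeEnergy n β g - ∫ h, freeEnergy n β h ∂(disorder n)|} ≤ Real.exp (-((n : ℝ) ^ (ε / 3))) ∧
    (∀ t : ℝ, 0 ≤ t → t < 1 → crossOverlap n β t ≤ (n : ℝ) ^ (-(2 / 3) + ε) / (1 - t)) := by
  obtain ⟨D, hD, h⟩ := H95.fluct (show 0 < β by linarith) (ε / 2) (by positivity)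
  have hD0 : 0 < D := by linarith
  have e6 : 0 < ε / 6 := by positivity
  filter_upwards [ev_pow (show 0 < ε / 2 by positivity) D, ev_pow e6 (1 + Real.log D),
    eventually_ge_atTop 1] with n g1 g2 g3
  have hn1 : (1 : ℝ) ≤ n := by exact_mod_cast g3
  have hn0 : (0 : ℝ) < n := by linarith
  obtain ⟨h3, -, h5, -, -, h8⟩ := h n g3
  have hD2 : ∀ r : ℝ, D * (n : ℝ) ^ (r + ε / 2) ≤ (n : ℝ) ^ (r + ε) := by
    intro r
    calc D * (n : ℝ) ^ (r + ε / 2) ≤ (n : ℝ) ^ (ε / 2) * (n : ℝ) ^ (r + ε / 2) := by gcongr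
      _ = (n : ℝ) ^ (r + ε) := by
        rw [← Real.rpow_add hn0]
        congr 1
        ring
  refine ⟨h3.trans (hD2 _), ?_, fun t ht0 ht1 => ?_⟩
  · have h9 := h5 ((n : ℝ) ^ (ε / 2)) (by positivity)
    have e1 : (n : ℝ) ^ (ε / 2) * (n : ℝ) ^ (1 / 6 + ε / 2) = (n : ℝ) ^ (1 / 6 + ε) := by
      rw [← Real.rpow_add hn0]
      congr 1
      ring
    rw [e1] at h9
    refine h9.trans ?_
    have e2 : D = Real.exp (Real.log D) := (Real.exp_log hD0).symm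
    have hl : 0 ≤ Real.log D := Real.log_nonneg hD
    have h10 : (n : ℝ) ^ (ε / 3) + Real.log D ≤ (n : ℝ) ^ (ε / 2) := by
      have h11 : (n : ℝ) ^ (ε / 2) = (n : ℝ) ^ (ε / 6) * (n : ℝ) ^ (ε / 3) := by
        rw [← Real.rpow_add hn0]
        congr 1
        ring
      have h12 : (1 : ℝ) ≤ (n : ℝ) ^ (ε / 3) := Real.one_le_rpow hn1 (by positivity)
      rw [h11]
      calc (n : ℝ) ^ (ε / 3) + Real.log D ≤ (n : ℝ) ^ (ε / 3) + Real.log D * (n : ℝ) ^ (ε / 3) := by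
            nlinarith
        _ = (1 + Real.log D) * (n : ℝ) ^ (ε / 3) := by ring
        _ ≤ (n : ℝ) ^ (ε / 6) * (n : ℝ) ^ (ε / 3) := by gcongr
    calc D * Real.exp (-(n : ℝ) ^ (ε / 2)) = Real.exp (Real.log D + -(n : ℝ) ^ (ε / 2)) := by
          rw [Real.exp_add, Real.exp_log hD0]
      _ ≤ _ := Real.exp_le_exp.2 (by linarith)
  · refine (h8 t ht0 ht1).trans ?_
    have : 0 < 1 - t := by linarith
    exact div_le_div_of_nonneg_right (hD2 _) this.le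

/-- **The order of the fluctuations of the free energy, from the response.** -/
theorem main {β : ℝ} (hβ : 1 < β) {b₁ : ℝ} (h0 : 0 < b₁) (h1 : b₁ < 2 / 17)
    (hR : Resp b₁ (H877.At β)) :
    -- the exponent of the variance
    Tendsto (fun n : ℕ => Real.log (Var[freeEnergy n β; disorder n]) / Real.log n) atTop
      (𝓝 (1 / 3)) ∧
    (∀ ε : ℝ, 0 < ε → ∀ᶠ n : ℕ in atTop,
      -- the variance
      (n : ℝ) ^ (1 / 3 - ε) ≤ Var[freeEnergy n β; disorder n] ∧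
      Var[freeEnergy n β; disorder n] ≤ (n : ℝ) ^ (1 / 3 + ε) ∧
      -- large fluctuations
      (disorder n).real {g | (n : ℝ) ^ (1 / 6 + ε) ≤
        |freeEnergy n β g - ∫ h, freeEnergy n β h ∂(disorder n)|} ≤
          Real.exp (-((n : ℝ) ^ (ε / 3))) ∧
      -- the exponential moments
      (∀ x : ℝ, (n : ℝ) ^ (-(1 / 6) + ε) ≤ x → x ≤ 1 →
        (n : ℝ) ^ (1 - ε) * x ^ 6 ≤ Real.log (∫ g, Real.exp (x * (freeEnergy n β g -
          ∫ h, freeEnergy n β h ∂(disorder n))) ∂(disorder n)) ∧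
        Real.log (∫ g, Real.exp (x * (freeEnergy n β g -
          ∫ h, freeEnergy n β h ∂(disorder n))) ∂(disorder n)) ≤ (n : ℝ) ^ (1 + ε) * x ^ 6) ∧
      -- chaos
      (∃ t : ℝ, 0 ≤ t ∧ t < 1 ∧ (n : ℝ) ^ (1 / 3 - ε) ≤ n * (1 - t) * crossOverlap n β t) ∧
      (∀ t : ℝ, 0 ≤ t → t < 1 → n * (1 - t) * crossOverlap n β t ≤ (n : ℝ) ^ (1 / 3 + ε))) ∧
    -- small balls
    (∀ κ c : ℝ, 0 ≤ κ → κ + c < 1 / 6 → ∀ᶠ n : ℕ in atTop, ∀ y : ℝ,
      (disorder n).real {g | |freeEnergy n β g - y| ≤ (n : ℝ) ^ κ} ≤ (n : ℝ) ^ (-c)) ∧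
    -- the right tail
    (∃ δ : ℝ, 0 < δ ∧ ∀ ε : ℝ, 0 < ε → ∀ᶠ n : ℕ in atTop,
      ∀ s : ℝ, (n : ℝ) ^ (-(5 / 6) + ε : ℝ) ≤ s → s ≤ δ →
      Real.exp (-((n : ℝ) ^ (1 + ε) * s ^ (6 / 5 : ℝ))) ≤ (disorder n).real {g |
        ∫ h, freeEnergy n β h ∂(disorder n) + n * s ≤ freeEnergy n β g} ∧
      (disorder n).real {g | ∫ h, freeEnergy n β h ∂(disorder n) + n * s ≤ freeEnergy n β g} ≤
        Real.exp (-((n : ℝ) ^ (1 - ε) * s ^ (6 / 5 : ℝ)))) := by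
  have hV := lowV_of_resp hβ h0 h1 hR
  have hL := lob_of_resp hβ h0 h1 hR
  have hU : H695.UpM β (1 / 16) := X7.H737.upM (by linarith) (by norm_num)
  refine ⟨H695.exponent (by linarith) hV, fun ε hε => ?_, fun κ c hκ hκc => ?_, ?_⟩
  · filter_upwards [hV (1 / 3 - ε) (by linarith), up_ev hβ hε,
      H695.chaos_gen (by norm_num) hV (show 1 / 3 - ε < 1 / 3 by linarith),
      H260.Dev.moments_lowB hβ hL ε hε,
      H260.Dev.moments_up hβ (by norm_num) (by norm_num) hU ε hε,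
      eventually_ge_atTop 1] with n g1 g2 g3 g4 g5 g6
    have hn1 : (1 : ℝ) ≤ n := by exact_mod_cast g6
    have hn0 : (0 : ℝ) < n := by linarith
    refine ⟨g1, g2.1, g2.2.1, fun x hx hx1 => ⟨g4 x hx hx1, g5 x
      (le_trans (Real.rpow_le_rpow_of_exponent_le hn1 (by linarith)) hx) hx1⟩, g3,
      fun t ht0 ht1 => ?_⟩
    have ht : 0 < 1 - t := by linarith
    have h2 := g2.2.2 t ht0 ht1
    rw [le_div_iff₀ ht] at h2
    calc n * (1 - t) * crossOverlap n β t = n * (crossOverlap n β t * (1 - t)) := by ring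
      _ ≤ n * (n : ℝ) ^ (-(2 / 3) + ε) := mul_le_mul_of_nonneg_left h2 hn0.le
      _ = (n : ℝ) ^ (1 : ℝ) * (n : ℝ) ^ (-(2 / 3) + ε) := by rw [Real.rpow_one]
      _ = (n : ℝ) ^ (1 / 3 + ε) := by
        rw [← Real.rpow_add hn0]
        congr 1
        ring
  · exact H695.small_gen hV hκ (by linarith)
  · obtain ⟨δ, hδ, h⟩ := H260.Dev.right_tailB hβ (by norm_num) (by norm_num) hU (b := 1 / 6)
      (le_refl _) hL
    refine ⟨δ, hδ, fun ε hε => ?_⟩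
    have e : (-(5 * (1 / 6)) + ε : ℝ) = -(5 / 6) + ε := by ring
    have h2 := h ε hε
    rw [e] at h2
    exact h2

end Vale.Agent.P146.H178
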