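import Vale.Agent.P146.H178.Fin
import Vale.Agent.P146.H178.EndQ

set_option linter.all false

/-!
# P146: the fluctuations of the free energy from the response on `x ≥ n^(-q+e)`
-/

open MeasureTheory ProbabilityTheory Filter Topology

namespace Vale.Agent.P146.H178

open Vale.Agent.P146 Vale.Agent.P146.H605

/-- **Lower bounds of the fluctuations of the free energy, from the response.** -/
theorem mainQ {β : ℝ} (hβ : 1 < β) {q b₁ : ℝ} (hq0 : 0 < q) (hq : q ≤ 1 / 6) (h0 : 0 < b₁)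
    (h1 : b₁ < 2 / 17) (hR : RespQ q b₁ (H877.At β)) :
    (∀ ε : ℝ, 0 < ε → ∀ᶠ n : ℕ in atTop,
      -- the variance
      (n : ℝ) ^ (2 * q - ε) ≤ Var[freeEnergy n β; disorder n] ∧
      Var[freeEnergy n β; disorder n] ≤ (n : ℝ) ^ (1 / 3 + ε) ∧
      -- the exponential moments
      (∀ x : ℝ, (n : ℝ) ^ (-q + ε) ≤ x → x ≤ 1 →
        (n : ℝ) ^ (1 - ε) * x ^ 6 ≤ Real.log (∫ g, Real.exp (x * (freeEnergy n β g -
          ∫ h, freeEnergy n β h ∂(disorder n))) ∂(disorder n)) ∧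
        Real.log (∫ g, Real.exp (x * (freeEnergy n β g -
          ∫ h, freeEnergy n β h ∂(disorder n))) ∂(disorder n)) ≤ (n : ℝ) ^ (1 + ε) * x ^ 6) ∧
      -- chaos
      (∃ t : ℝ, 0 ≤ t ∧ t < 1 ∧ (n : ℝ) ^ (2 * q - ε) ≤ n * (1 - t) * crossOverlap n β t)) ∧
    -- small balls
    (∀ κ c : ℝ, 0 ≤ κ → κ + c < q → ∀ᶠ n : ℕ in atTop, ∀ y : ℝ,
      (disorder n).real {g | |freeEnergy n β g - y| ≤ (n : ℝ) ^ κ} ≤ (n : ℝ) ^ (-c)) ∧
    -- the right tail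
    (∃ δ : ℝ, 0 < δ ∧ ∀ ε : ℝ, 0 < ε → ∀ᶠ n : ℕ in atTop,
      ∀ s : ℝ, (n : ℝ) ^ (-(5 * q) + ε : ℝ) ≤ s → s ≤ δ →
      Real.exp (-((n : ℝ) ^ (1 + ε) * s ^ (6 / 5 : ℝ))) ≤ (disorder n).real {g |
        ∫ h, freeEnergy n β h ∂(disorder n) + n * s ≤ freeEnergy n β g} ∧
      (disorder n).real {g | ∫ h, freeEnergy n β h ∂(disorder n) + n * s ≤ freeEnergy n β g} ≤
        Real.exp (-((n : ℝ) ^ (1 - ε) * s ^ (6 / 5 : ℝ)))) := by
  have hV := lowV_of_respQ hq0 hq hβ h0 h1 hR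
  have hL := lob_of_respQ hq hβ h0 h1 hR
  have hU : H695.UpM β (1 / 16) := X7.H737.upM (by linarith) (by norm_num)
  refine ⟨fun ε hε => ?_, fun κ c hκ hκc => ?_, ?_⟩
  · filter_upwards [hV (2 * q - ε) (by linarith), up_ev hβ hε,
      H695.chaos_gen (by linarith) hV (show 2 * q - ε < 2 * q by linarith),
      H260.Dev.moments_lowB hβ hL ε hε,
      H260.Dev.moments_up hβ (by norm_num) (by norm_num) hU ε hε,
      eventually_ge_atTop 1] with n g1 g2 g3 g4 g5 g6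
    have hn1 : (1 : ℝ) ≤ n := by exact_mod_cast g6
    exact ⟨g1, g2.1, fun x hx hx1 => ⟨g4 x hx hx1, g5 x
      (le_trans (Real.rpow_le_rpow_of_exponent_le hn1 (by linarith)) hx) hx1⟩, g3⟩
  · exact H695.small_gen hV hκ (by linarith)
  · exact H260.Dev.right_tailB hβ (by norm_num) (by norm_num) hU hq hL

end Vale.Agent.P146.H178
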