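import Vale.Agent.P146.H178.KDiff

set_option linter.all false

/-!
# P146: the input of the flow from the two-sided formula
-/

open MeasureTheory Set Filter Topology

namespace Vale.Agent.P146.H178

open H9 (Phn KV)
open H529 (SG)
open H317 (J)

lemma ev_neg {u : ℝ} (hu : 0 < u) {c : ℝ} (hc : 0 < c) : ∀ᶠ n : ℕ in atTop,
    (n : ℝ) ^ (-u) ≤ c :=
  ((tendsto_rpow_neg_atTop hu).comp
    (tendsto_natCast_atTop_atTop (R := ℝ))).eventually_le_const hc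

/-- **The inequality for the difference of the entropies.** -/
theorem kdiffH_of {β b₁ e s0 s s' d c ch g w : ℝ} {Ka : ℕ → ℝ → ℝ → ℝ → ℝ} (hβ : 1 < β)
    (hb₁ : 0 < b₁) (he : 0 < e) (hUp : UpK β) (hs0 : 0 < s0) (hs : 0 < s) (hc : 0 < c)
    (hch : 0 < ch) (h1 : 2 * s' < d) (hd : 0 < d) (h2 : 2 * d + s0 - s < ch) (h3 : d + s' < g)
    (h4 : s0 + d < w) (LU : LinkUp β e ch g w d Ka) (LD : LinkDn β e ch g w d Ka)
    (KU : KampUp β b₁ e s0 s s' d c Ka) (KL : KampLow β b₁ e s0 s s' d c Ka) :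
    KDiffH β b₁ e s s' d (fun n => Phn n β) (fun n => KV n β) := by
  intro ι hι
  have hβ0 : 0 < β := by linarith
  obtain ⟨t, ht⟩ : ∃ t, t = min (1 / 100) (ι / 30) := ⟨_, rfl⟩
  have ht0 : 0 < t := by rw [ht]; exact lt_min (by norm_num) (by positivity)
  have ht1 : t ≤ 1 / 100 := by rw [ht]; exact min_le_left _ _
  have ht2 : 30 * t ≤ ι := by
    have : t ≤ ι / 30 := by rw [ht]; exact min_le_right _ _
    linarith
  have hcv : Ccv β := fun n _ x hx hx1 => H320.Conc.Phn_conc n β hx (by linarith)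
  filter_upwards [ev_neg hch ht0, ev_neg (sub_pos.2 h1) (show 0 < t / 512 by positivity),
    ev_neg (sub_pos.2 h2) (show 0 < t / (64 * β ^ 2) by positivity),
    ev_neg hc (show 0 < t / (64 * β ^ 3) by positivity),
    ev_neg (sub_pos.2 h3) (show 0 < t / (4 * β) by positivity),
    ev_pow (sub_pos.2 h4) (512 * β), ev_neg hb₁ (show (0 : ℝ) < 1 / 256 by norm_num),
    ev_neg hd (show (0 : ℝ) < 1 / 8 by norm_num), LU 2048 (by norm_num), LD 2048 (by norm_num),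
    KU 2048 (by norm_num), KL 2048 (by norm_num), ap_of_nm hβ hcv hUp hs0,
    eventually_ge_atTop 1] with n q1 q2 q3 q4 q5 q6 q7 q8 f1 f2 f3 f4 f5 hn
    y hy1 hy2 v hv1 hv2 L hL1 hL2 hist hA1 hA2
  have hn1 : (1 : ℝ) ≤ n := by exact_mod_cast hn
  have hn0 : (0 : ℝ) < n := by linarith
  -- the numbers
  obtain ⟨D, hD⟩ : ∃ D, D = (n : ℝ) ^ (-d) := ⟨_, rfl⟩
  obtain ⟨S, hS⟩ : ∃ S, S = (n : ℝ) ^ (-s) := ⟨_, rfl⟩
  obtain ⟨S', hS'⟩ : ∃ S', S' = (n : ℝ) ^ (-s') := ⟨_, rfl⟩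
  obtain ⟨θ, hθ⟩ : ∃ θ, θ = (n : ℝ) ^ (-ch) := ⟨_, rfl⟩
  obtain ⟨q0, hq0⟩ : ∃ q0, q0 = (n : ℝ) ^ (-(d + s' + c)) := ⟨_, rfl⟩
  obtain ⟨g0, hg0⟩ : ∃ g0, g0 = (n : ℝ) ^ (-g) := ⟨_, rfl⟩
  obtain ⟨W, hW⟩ : ∃ W, W = (n : ℝ) ^ w := ⟨_, rfl⟩
  have hD0 : 0 < D := by rw [hD]; positivity
  have hS0 : 0 < S := by rw [hS]; positivity
  have hS'0 : 0 < S' := by rw [hS']; positivity
  have hθ0 : 0 < θ := by rw [hθ]; positivity
  have hq00 : 0 < q0 := by rw [hq0]; positivity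
  have hg00 : 0 < g0 := by rw [hg0]; positivity
  have hT0 : 0 < (n : ℝ) ^ s0 := by positivity
  have hS1 : S ≤ 1 := by rw [hS]; exact Real.rpow_le_one_of_one_le_of_nonpos hn1 (by linarith)
  have eG : (n : ℝ) ^ (1 - g) = n * g0 := by
    rw [hg0, show (1 - g : ℝ) = 1 + -g by ring, Real.rpow_add hn0, Real.rpow_one]
  have eT : (n : ℝ) ^ (1 + s0) = n * (n : ℝ) ^ s0 := by
    rw [Real.rpow_add hn0, Real.rpow_one]
  have x0 : 0 < (n : ℝ) ^ (-(1 / 6) + e) := Real.rpow_pos_of_pos hn0 _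
  have hy0 : 0 < y := x0.trans_le hy1
  have hy64 : y ≤ 1 / 64 := by linarith
  have c1 : 512 * D ≤ t * S' ^ 2 := by
    have e1 : D = (n : ℝ) ^ (-(d - 2 * s')) * S' ^ 2 := by
      rw [hD, hS', ← Real.rpow_natCast, ← Real.rpow_mul hn0.le, ← Real.rpow_add hn0]
      congr 1
      push_cast
      ring
    have h5 := mul_le_mul_of_nonneg_right q2 (show 0 ≤ 512 * S' ^ 2 by positivity)
    rw [e1]
    linarith
  have c2 : 64 * β ^ 2 * θ * (n : ℝ) ^ s0 * S ≤ t * D ^ 2 := by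
    have e1 : θ * (n : ℝ) ^ s0 * S = (n : ℝ) ^ (-(ch - (2 * d + s0 - s))) * D ^ 2 := by
      rw [hD, hS, hθ, ← Real.rpow_natCast, ← Real.rpow_mul hn0.le, ← Real.rpow_add hn0,
        ← Real.rpow_add hn0, ← Real.rpow_add hn0]
      congr 1
      push_cast
      ring
    have h5 := mul_le_mul_of_nonneg_right q3 (show 0 ≤ 64 * β ^ 2 * D ^ 2 by positivity)
    have e2 : t / (64 * β ^ 2) * (64 * β ^ 2 * D ^ 2) = t * D ^ 2 := by field_simp
    rw [e2] at h5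
    calc 64 * β ^ 2 * θ * (n : ℝ) ^ s0 * S = 64 * β ^ 2 * (θ * (n : ℝ) ^ s0 * S) := by ring
      _ = (n : ℝ) ^ (-(ch - (2 * d + s0 - s))) * (64 * β ^ 2 * D ^ 2) := by rw [e1]; ring
      _ ≤ _ := h5
  have c3 : 16 * β ^ 2 * q0 + g0 ≤ t * (D * S') / (2 * β) := by
    have e1 : q0 = (n : ℝ) ^ (-c) * (D * S') := by
      rw [hq0, hD, hS', ← Real.rpow_add hn0, ← Real.rpow_add hn0]
      congr 1
      ring
    have e2 : g0 = (n : ℝ) ^ (-(g - (d + s'))) * (D * S') := by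
      rw [hg0, hD, hS', ← Real.rpow_add hn0, ← Real.rpow_add hn0]
      congr 1
      ring
    have h5 := mul_le_mul_of_nonneg_right q4 (show 0 ≤ 16 * β ^ 2 * (D * S') by positivity)
    have h6 := mul_le_mul_of_nonneg_right q5 (show 0 ≤ D * S' by positivity)
    have e3 : t / (64 * β ^ 3) * (16 * β ^ 2 * (D * S')) = t * (D * S') / (4 * β) := by
      field_simp
      ring
    have e4 : t / (4 * β) * (D * S') = t * (D * S') / (4 * β) := by ring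
    have e5 : t * (D * S') / (2 * β) = t * (D * S') / (4 * β) + t * (D * S') / (4 * β) := by ring
    rw [e3] at h5
    rw [e4] at h6
    rw [e5]
    refine add_le_add ?_ ?_
    · calc 16 * β ^ 2 * q0 = (n : ℝ) ^ (-c) * (16 * β ^ 2 * (D * S')) := by rw [e1]; ring
        _ ≤ _ := h5
    · rw [e2]
      exact h6
  have hWD : 512 * β * (n : ℝ) ^ s0 ≤ W * D := by
    have e1 : W * D = (n : ℝ) ^ (w - (s0 + d)) * (n : ℝ) ^ s0 := by
      rw [hW, hD, ← Real.rpow_add hn0, ← Real.rpow_add hn0]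
      congr 1
      ring
    rw [e1]
    exact mul_le_mul_of_nonneg_right q6 hT0.le
  rw [← hD] at hv1 hv2 f1 f2 f3 f4 q8
  rw [← hS'] at hL1 f3 f4
  rw [← hS] at hL2 f3 f4
  rw [← hθ] at f1 f2 q1
  rw [← hq0] at f3 f4
  rw [← hW, eG] at f1 f2
  have hv : 0 < v := lt_of_lt_of_le (by positivity) hv1
  have hL0 : 0 < L := lt_of_lt_of_le (by positivity) hL1
  -- the a priori package
  obtain ⟨z, hz, hAt⟩ := hist
  rw [at_eq] at hAt
  have hyX : (n : ℝ) ^ (-(1 / 6) : ℝ) ≤ y :=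
    (Real.rpow_le_rpow_of_exponent_le hn1 (by linarith)).trans hy1
  have h4v : 4 * v ≤ y ^ 2 := by
    have h5 : 4 * v ≤ 512 * D * y * y ^ 2 := by
      linarith [show 512 * D * y * y ^ 2 = 4 * (128 * (D * y ^ 3)) by ring]
    have h6 : 512 * D * y ≤ 1 := by
      calc 512 * D * y ≤ 512 * (1 / 8) * (1 / 64) := by gcongr
        _ = 1 := by norm_num
    have h7 := mul_le_mul_of_nonneg_right h6 (sq_nonneg y)
    linarith
  have hap : ∀ u : ℝ, y / 2 ≤ u → u ≤ 2 * y → AP β s0 n u (4 * v) :=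
    f5 y z (4 * v) hyX (by linarith) hz.1 hz.2 (by linarith) h4v hAt
  -- the slope
  obtain ⟨a, ha⟩ : ∃ a, a = H122.Asec β (fun n => Phn n β) n y v (2 * v) - 1 := ⟨_, rfl⟩
  have hae := asec_eq (n := n) (β := β) (y := y) (v := v) hn hβ0 hv
  rw [← ha] at hae
  have ha1 : L / 2 ≤ a := by linarith
  have ha2 : a ≤ L := by linarith
  have ha0 : 0 < a := by linarith
  obtain ⟨δ, hδ⟩ : ∃ δ, δ = 64 * β * θ * (n : ℝ) ^ s0 * y ^ 5 / v := ⟨_, rfl⟩
  have hδ0 : 0 ≤ δ := by rw [hδ]; positivity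
  have k1 := num_δ hβ hy0 hv hD0 ht0 hθ0 hT0.le hv1 (ha2.trans hL2) c2
  have k2 := num_P hβ hy0 hv hS'0 ht0 hv2 hL1 ha1 c1
  rw [← hδ] at k1
  have hδa : δ ≤ a / 2 := by
    have h5 : δ * a ≤ t * (t * a ^ 2) := k1.trans (mul_le_mul_of_nonneg_left k2 ht0.le)
    have h6 : t * (t * a ^ 2) ≤ 1 / 2 * (1 * a ^ 2) := by gcongr <;> linarith
    have h7 : 1 / 2 * (1 * a ^ 2) = a / 2 * a := by ring
    rw [h7] at h6
    exact le_of_mul_le_mul_right (h5.trans h6) ha0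
  have hk : ∀ u : ℝ, y / 2 ≤ u → u ≤ 2 * y → KV n β u (2 * v) ≤ n * (n : ℝ) ^ s0 * u ^ 6 := by
    intro u h5 h6
    have := (hap u h5 h6).kk (2 * v) (by linarith) (by linarith)
    rwa [eT] at this
  exact kdiff_one hn hβ hy0 hy64 ht0 ht1 ht2 hθ0 q1 hT0.le hD0 hS0 hS1 hS'0 hq00.le hv1 hv2 hL1
    hL2 ha1 ha2 c1 c2 c3 hae hk hδ
    (fun ap h5 h6 => up_in hn hβ hy0 hy64 hθ0 (by linarith) hy1 hy2 hD0 q8 hS0 hS'0 hv1 hv2
      (by linarith) (ha2.trans hL2) hδ0 hδa hWD hap h4v f1 f3 h5 h6)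
    (fun am h5 h6 => lo_in hn hβ hy0 hy64 hθ0 (by linarith) hy1 hy2 hD0 q8 hS0 hS'0
      (by positivity) hv1 hv2 (by linarith) (ha2.trans hL2) hδ0 hδa hWD hap h4v f2 f4 h5 h6)

end Vale.Agent.P146.H178
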