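import Vale.Agent.P146.H317.Rho

set_option linter.all false

/-!
# P146: the closed form of the `T`-integral of the root

`(n y² β² / 4) ∫_0^1 ρ_T² dT = (2/3) n a³ + n y a V / β + ...`, `ρ_T` the positive root of
`β y ρ² + (T - 2 a) ρ = V / β²`.
-/

open MeasureTheory Set Filter Topology

namespace Vale.Agent.P146.H178

open H317 (rho g)

section g0

variable {a c w : ℝ}

/-- the root at `T = 0` -/
lemma rho_zero (hc : 0 < c) : c * rho c (2 * a) w 0 = a + √(a ^ 2 + c * w) := by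
  have e : √((2 * a - 0) ^ 2 + 4 * c * w) = 2 * √(a ^ 2 + c * w) := by
    have : (2 * a - 0) ^ 2 + 4 * c * w = 2 ^ 2 * (a ^ 2 + c * w) := by ring
    rw [this, Real.sqrt_mul (by norm_num), Real.sqrt_sq (by norm_num)]
  unfold rho
  rw [e]
  field_simp
  ring

lemma g_zero (hc : 0 < c) (ha : 0 < a) (hw : 0 < w) :
    g c (2 * a) w 0 = 2 * (2 * √(a ^ 2 + c * w) ^ 3 + 3 * a * √(a ^ 2 + c * w) ^ 2 - a ^ 3) /
      (3 * c ^ 2) := by
  have h := rho_zero (a := a) (w := w) hc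
  obtain ⟨u, hu⟩ : ∃ u, u = √(a ^ 2 + c * w) := ⟨_, rfl⟩
  have hu2 : u ^ 2 = a ^ 2 + c * w := by rw [hu]; exact Real.sq_sqrt (by positivity)
  obtain ⟨r, hr⟩ : ∃ r, r = rho c (2 * a) w 0 := ⟨_, rfl⟩
  rw [← hu, ← hr] at h
  unfold g
  rw [← hr, ← hu]
  have hr2 : r = (a + u) / c := by
    rw [eq_div_iff hc.ne']
    linarith
  have hw2 : w = (u ^ 2 - a ^ 2) / c := by
    rw [hu2]
    field_simp
    ring
  rw [hr2, hw2]
  field_simp
  ring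

lemma cube_lo (hc : 0 < c) (ha : 0 < a) (hw : 0 < w) :
    a ^ 3 + 3 / 2 * a * (c * w) ≤ √(a ^ 2 + c * w) ^ 3 := by
  obtain ⟨u, hu⟩ : ∃ u, u = √(a ^ 2 + c * w) := ⟨_, rfl⟩
  have hu2 : u ^ 2 = a ^ 2 + c * w := by rw [hu]; exact Real.sq_sqrt (by positivity)
  have hu0 : 0 ≤ u := by rw [hu]; exact Real.sqrt_nonneg _
  rw [← hu]
  have hau : a ≤ u := by
    rw [hu]
    exact Real.le_sqrt_of_sq_le (by nlinarith [mul_pos hc hw])
  have e : c * w = u ^ 2 - a ^ 2 := by linarith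
  rw [e]
  have h1 : u ^ 3 - (a ^ 3 + 3 / 2 * a * (u ^ 2 - a ^ 2)) = (u - a) ^ 2 * (u + a / 2) := by ring
  have h2 : 0 ≤ (u - a) ^ 2 * (u + a / 2) := by positivity
  linarith

lemma cube_up (hc : 0 < c) (ha : 0 < a) (hw : 0 < w) :
    √(a ^ 2 + c * w) ^ 3 ≤ a ^ 3 + 3 / 2 * a * (c * w) + 3 / 8 * (c * w) ^ 2 / a := by
  obtain ⟨u, hu⟩ : ∃ u, u = √(a ^ 2 + c * w) := ⟨_, rfl⟩
  have hu2 : u ^ 2 = a ^ 2 + c * w := by rw [hu]; exact Real.sq_sqrt (by positivity)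
  have hu0 : 0 ≤ u := by rw [hu]; exact Real.sqrt_nonneg _
  rw [← hu]
  have hau : a ≤ u := by
    rw [hu]
    exact Real.le_sqrt_of_sq_le (by nlinarith [mul_pos hc hw])
  have e : c * w = u ^ 2 - a ^ 2 := by linarith
  rw [e]
  have h1 : a ^ 3 + 3 / 2 * a * (u ^ 2 - a ^ 2) + 3 / 8 * (u ^ 2 - a ^ 2) ^ 2 / a - u ^ 3 =
      (u - a) ^ 3 * (3 * u + a) / (8 * a) := by
    field_simp
    ring
  have h2 : 0 ≤ (u - a) ^ 3 * (3 * u + a) / (8 * a) := by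
    have : 0 ≤ u - a := by linarith
    positivity
  linarith

lemma g_zero_ge (hc : 0 < c) (ha : 0 < a) (hw : 0 < w) :
    8 * a ^ 3 / (3 * c ^ 2) + 4 * a * w / c ≤ g c (2 * a) w 0 := by
  have h := cube_lo hc ha hw
  have hu2 : √(a ^ 2 + c * w) ^ 2 = a ^ 2 + c * w := Real.sq_sqrt (by positivity)
  rw [g_zero hc ha hw, hu2, le_div_iff₀ (by positivity)]
  have e : (8 * a ^ 3 / (3 * c ^ 2) + 4 * a * w / c) * (3 * c ^ 2) = 8 * a ^ 3 + 12 * a * (c * w) := by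
    field_simp
    ring
  rw [e]
  linarith

lemma g_zero_le (hc : 0 < c) (ha : 0 < a) (hw : 0 < w) :
    g c (2 * a) w 0 ≤ 8 * a ^ 3 / (3 * c ^ 2) + 4 * a * w / c + w ^ 2 / (2 * a) := by
  have h := cube_up hc ha hw
  have hu2 : √(a ^ 2 + c * w) ^ 2 = a ^ 2 + c * w := Real.sq_sqrt (by positivity)
  rw [g_zero hc ha hw, hu2, div_le_iff₀ (by positivity)]
  have e : (8 * a ^ 3 / (3 * c ^ 2) + 4 * a * w / c + w ^ 2 / (2 * a)) * (3 * c ^ 2) =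
      8 * a ^ 3 + 12 * a * (c * w) + 4 * (3 / 8 * (c * w) ^ 2 / a) := by
    field_simp
    ring
  rw [e]
  linarith

/-- the root at `T = 1` -/
lemma rho_one_le (hc : 0 < c) (ha : a ≤ 1 / 4) (hw : 0 < w) : rho c (2 * a) w 1 ≤ 2 * w := by
  refine H317.rho_le hc hw (by positivity) ?_
  nlinarith [mul_pos hc (sq_pos_of_pos hw), mul_nonneg (show 0 ≤ 1 / 4 - a by linarith) hw.le]

lemma g_one_le (hc : 0 < c) (ha : a ≤ 1 / 4) (hw : 0 < w) :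
    g c (2 * a) w 1 ≤ 8 / 3 * c * w ^ 3 + 2 * w ^ 2 := by
  have h := rho_one_le hc ha hw
  have hp := H317.rho_pos (a := 2 * a) (T := 1) hc hw
  have h3 : rho c (2 * a) w 1 ^ 3 ≤ (2 * w) ^ 3 := pow_le_pow_left₀ hp.le h 3
  unfold g
  have h4 := mul_le_mul_of_nonneg_left h3 hc.le
  have h5 := mul_le_mul_of_nonneg_left h hw.le
  have e : (2 * w) ^ 3 = 8 * w ^ 3 := by ring
  rw [e] at h4
  nlinarith

/-- **Upper bound of the integral.** -/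
theorem J_le (hc : 0 < c) (ha : 0 < a) (hw : 0 < w) :
    ∫ T in (0 : ℝ)..1, rho c (2 * a) w T ^ 2 ≤
      8 * a ^ 3 / (3 * c ^ 2) + 4 * a * w / c + w ^ 2 / (2 * a) := by
  rw [H317.integral_sq hc hw]
  have h1 := g_zero_le hc ha hw
  have h2 := H317.g_nonneg (a := 2 * a) (T := 1) hc hw
  linarith

/-- **Lower bound of the integral.** -/
theorem J_ge (hc : 0 < c) (ha : 0 < a) (ha4 : a ≤ 1 / 4) (hw : 0 < w) :
    8 * a ^ 3 / (3 * c ^ 2) + 4 * a * w / c - (8 / 3 * c * w ^ 3 + 2 * w ^ 2) ≤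
      ∫ T in (0 : ℝ)..1, rho c (2 * a) w T ^ 2 := by
  rw [H317.integral_sq hc hw]
  have h1 := g_zero_ge hc ha hw
  have h2 := g_one_le hc ha4 hw
  linarith

end g0

/-- `(n y² β² / 4) J ≤ (2/3) n a³ + n y a V / β (1 + y V / (8 β a²))`. -/
theorem KJ_le {n y β a V : ℝ} (hn : 0 < n) (hy : 0 < y) (hβ : 0 < β) (ha : 0 < a) (hV : 0 < V) :
    n * y ^ 2 * β ^ 2 / 4 * ∫ T in (0 : ℝ)..1, rho (β * y) (2 * a) (V / β ^ 2) T ^ 2 ≤
      2 / 3 * n * a ^ 3 + n * y * a * V / β * (1 + y * V / (8 * β * a ^ 2)) := by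
  have h := J_le (c := β * y) (w := V / β ^ 2) (by positivity) ha (by positivity)
  have h2 := mul_le_mul_of_nonneg_left h (show 0 ≤ n * y ^ 2 * β ^ 2 / 4 by positivity)
  refine h2.trans (le_of_eq ?_)
  field_simp
  ring

theorem KJ_ge {n y β a V : ℝ} (hn : 0 < n) (hy : 0 < y) (hβ : 0 < β) (ha : 0 < a)
    (ha4 : a ≤ 1 / 4) (hV : 0 < V) :
    2 / 3 * n * a ^ 3 + n * y * a * V / β * (1 - (2 / 3 * y ^ 2 * V ^ 2 / β ^ 2 +
      y * V / (2 * β)) / a) ≤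
    n * y ^ 2 * β ^ 2 / 4 * ∫ T in (0 : ℝ)..1, rho (β * y) (2 * a) (V / β ^ 2) T ^ 2 := by
  have h := J_ge (c := β * y) (w := V / β ^ 2) (by positivity) ha ha4 (by positivity)
  have h2 := mul_le_mul_of_nonneg_left h (show 0 ≤ n * y ^ 2 * β ^ 2 / 4 by positivity)
  refine le_trans (le_of_eq ?_) h2
  field_simp
  ring

end Vale.Agent.P146.H178
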