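import Vale.Agent.P146.H317.UpLow
import Vale.Agent.P146.H178.KF

set_option linter.all false

/-!
# P146: the difference of the two entropies, for one `n`

With `P = y v / β`: `KV(2 v) - KV(v) ≤ (1 + ι) N P a` from the two-sided formula at the exponents
`y (1 + θ)`, `y / (1 + θ)` and the slopes `a ± δ`.
-/

open MeasureTheory Set Filter Topology

namespace Vale.Agent.P146.H178

open H317 (J)

/-- the upper side -/
lemma kup_num {N y β v a δ θ t E K : ℝ} (hN : 0 < N) (hy : 0 < y) (hβ : 0 < β) (hv : 0 < v)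
    (ha : 0 < a) (ht0 : 0 < t) (ht1 : t ≤ 1 / 100) (hδ0 : 0 ≤ δ) (hδa : δ ≤ t * a)
    (hθ0 : 0 ≤ θ) (hθ : θ ≤ t) (hP : y * v / β ≤ t * a ^ 2)
    (hU : K ≤ N * (y * (1 + θ)) ^ 2 * β ^ 2 / 4 * J (β * (y * (1 + θ))) (2 * (a + δ))
      (2 * v / β ^ 2) + E) :
    K ≤ 2 / 3 * N * (a + δ) ^ 3 + (2 + 7 * t) * (N * (y * v / β) * a) + E := by
  have hy' : 0 < y * (1 + θ) := by positivity
  have h := KJ_le (n := N) (y := y * (1 + θ)) (β := β) (a := a + δ) (V := 2 * v) hN hy' hβ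
    (by linarith) (by linarith)
  unfold J at hU
  have hP0 : 0 < y * v / β := by positivity
  obtain ⟨P, hPe⟩ : ∃ P, P = y * v / β := ⟨_, rfl⟩
  rw [← hPe] at hP hP0 ⊢
  have e1 : N * (y * (1 + θ)) * (a + δ) * (2 * v) / β *
      (1 + y * (1 + θ) * (2 * v) / (8 * β * (a + δ) ^ 2)) =
      2 * (N * P) * ((1 + θ) * (a + δ)) * (1 + (1 + θ) * P / (4 * (a + δ) ^ 2)) := by
    rw [hPe]
    field_simp
    ring
  rw [e1] at h
  have h1 : (1 + θ) * (a + δ) ≤ (1 + t) * ((1 + t) * a) :=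
    mul_le_mul (by linarith) (by linarith) (by linarith) (by linarith)
  have h2 : (1 + θ) * P / (4 * (a + δ) ^ 2) ≤ t := by
    rw [div_le_iff₀ (by positivity)]
    have h3 : a ^ 2 ≤ (a + δ) ^ 2 := pow_le_pow_left₀ ha.le (by linarith) 2
    have h4 : (1 + θ) * P ≤ 2 * P := by nlinarith
    have h5 : t * a ^ 2 ≤ t * (a + δ) ^ 2 := mul_le_mul_of_nonneg_left h3 ht0.le
    have h6 : 0 ≤ t * (a + δ) ^ 2 := by positivity
    linarith
  have h3 : (1 + θ) * (a + δ) * (1 + (1 + θ) * P / (4 * (a + δ) ^ 2)) ≤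
      (1 + t) * ((1 + t) * a) * (1 + t) :=
    mul_le_mul h1 (by linarith) (by positivity) (by positivity)
  have h4 : (1 + t) * ((1 + t) * a) * (1 + t) ≤ (1 + 7 / 2 * t) * a := by
    have h5 : (1 + t) ^ 3 ≤ 1 + 7 / 2 * t := by
      have q1 : t ^ 2 ≤ 1 / 100 * t := by
        rw [sq]
        exact mul_le_mul_of_nonneg_right ht1 ht0.le
      have q2 : t ^ 3 ≤ 1 / 100 * t := by
        have : t ^ 3 = t ^ 2 * t := by ring
        rw [this]
        refine mul_le_mul_of_nonneg_right ?_ ht0.le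
        linarith
      have e : (1 + t) ^ 3 = 1 + 3 * t + 3 * t ^ 2 + t ^ 3 := by ring
      rw [e]
      linarith
    calc (1 + t) * ((1 + t) * a) * (1 + t) = (1 + t) ^ 3 * a := by ring
      _ ≤ _ := mul_le_mul_of_nonneg_right h5 ha.le
  have h5 := mul_le_mul_of_nonneg_left (h3.trans h4) (show 0 ≤ 2 * (N * P) by positivity)
  have e2 : 2 * (N * P) * ((1 + θ) * (a + δ)) * (1 + (1 + θ) * P / (4 * (a + δ) ^ 2)) =
      2 * (N * P) * ((1 + θ) * (a + δ) * (1 + (1 + θ) * P / (4 * (a + δ) ^ 2))) := by ring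
  rw [e2] at h
  have e3 : 2 * (N * P) * ((1 + 7 / 2 * t) * a) = (2 + 7 * t) * (N * P * a) := by ring
  rw [e3] at h5
  linarith

/-- the lower side -/
lemma klo_num {N y β v a δ θ t E K : ℝ} (hN : 0 < N) (hy : 0 < y) (hβ : 0 < β) (hv : 0 < v)
    (ha : 0 < a) (ha4 : a ≤ 1 / 4) (ht0 : 0 < t) (ht1 : t ≤ 1 / 100) (hδ0 : 0 ≤ δ)
    (hδa : δ ≤ t * a) (hθ0 : 0 ≤ θ) (hθ : θ ≤ t) (hP : y * v / β ≤ t * a ^ 2)
    (hL : N * (y / (1 + θ)) ^ 2 * β ^ 2 / 4 * J (β * (y / (1 + θ))) (2 * (a - δ))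
      (v / β ^ 2) - E ≤ K) :
    2 / 3 * N * (a - δ) ^ 3 + (1 - 4 * t) * (N * (y * v / β) * a) - E ≤ K := by
  have hθ1 : 0 < 1 + θ := by linarith
  have hy' : 0 < y / (1 + θ) := by positivity
  have hta : t * a ≤ 1 / 100 * a := mul_le_mul_of_nonneg_right ht1 ha.le
  have had : 0 < a - δ := by linarith
  have h := KJ_ge (n := N) (y := y / (1 + θ)) (β := β) (a := a - δ) (V := v) hN hy' hβ
    had (by linarith) hv
  unfold J at hL
  have hP0 : 0 < y * v / β := by positivity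
  obtain ⟨P, hPe⟩ : ∃ P, P = y * v / β := ⟨_, rfl⟩
  rw [← hPe] at hP hP0 ⊢
  obtain ⟨r, hr⟩ : ∃ r, r = 1 / (1 + θ) := ⟨_, rfl⟩
  have hr1 : r ≤ 1 := by rw [hr, div_le_one hθ1]; linarith
  have hr2 : 1 - t ≤ r := by
    rw [hr, le_div_iff₀ hθ1]
    have q1 : (1 - t) * (1 + θ) = 1 - t + θ - t * θ := by ring
    have q2 : 0 ≤ t * θ := by positivity
    rw [q1]
    linarith
  have hr0 : 0 < r := by rw [hr]; positivity
  have e1 : N * (y / (1 + θ)) * (a - δ) * v / β * (1 - (2 / 3 * (y / (1 + θ)) ^ 2 * v ^ 2 / β ^ 2 +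
      y / (1 + θ) * v / (2 * β)) / (a - δ)) =
      N * P * (r * (a - δ)) * (1 - (2 / 3 * (r * P) ^ 2 + r * P / 2) / (a - δ)) := by
    rw [hPe, hr]
    field_simp
  rw [e1] at h
  have hPa : P ≤ t / 4 * a := by
    have q1 : t * a ^ 2 ≤ t * (1 / 4 * a) := by
      rw [sq]
      exact mul_le_mul_of_nonneg_left (mul_le_mul_of_nonneg_right ha4 ha.le) ht0.le
    linarith
  have hP1 : P ≤ 1 / 4 := by linarith
  have h2 : (2 / 3 * (r * P) ^ 2 + r * P / 2) / (a - δ) ≤ t := by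
    rw [div_le_iff₀ had]
    have h3 : r * P ≤ P := mul_le_of_le_one_left hP0.le hr1
    have h4 : (r * P) ^ 2 ≤ P ^ 2 := pow_le_pow_left₀ (by positivity) h3 2
    have h5 : P ^ 2 ≤ 1 / 4 * P := by
      rw [sq]
      exact mul_le_mul_of_nonneg_right hP1 hP0.le
    have h6 : a ≤ 2 * (a - δ) := by linarith
    have h7 : t * a ≤ t * (2 * (a - δ)) := mul_le_mul_of_nonneg_left h6 ht0.le
    have h8 : 0 ≤ t * a := by positivity
    have h9 : t * (2 * (a - δ)) = 2 * (t * (a - δ)) := by ring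
    linarith
  have h3 : (1 - t) * ((1 - t) * a) ≤ r * (a - δ) := by
    have : (1 - t) * a ≤ a - δ := by linarith
    exact mul_le_mul hr2 this (mul_nonneg (by linarith) ha.le) hr0.le
  have h4 : (1 - t) * ((1 - t) * a) * (1 - t) ≤
      r * (a - δ) * (1 - (2 / 3 * (r * P) ^ 2 + r * P / 2) / (a - δ)) :=
    mul_le_mul h3 (by linarith) (by linarith) (by positivity)
  have h5 : (1 - 4 * t) * a ≤ (1 - t) * ((1 - t) * a) * (1 - t) := by
    have h6 : 1 - 4 * t ≤ (1 - t) ^ 3 := by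
      have q2 : t ^ 3 ≤ t := by
        have : t ^ 3 = t ^ 2 * t := by ring
        rw [this]
        refine mul_le_of_le_one_left ht0.le ?_
        have : t ^ 2 ≤ 1 ^ 2 := pow_le_pow_left₀ ht0.le (by linarith) 2
        linarith
      have e : (1 - t) ^ 3 = 1 - 3 * t + 3 * t ^ 2 - t ^ 3 := by ring
      have q3 : 0 ≤ t ^ 2 := sq_nonneg _
      rw [e]
      linarith
    calc (1 - 4 * t) * a ≤ (1 - t) ^ 3 * a := mul_le_mul_of_nonneg_right h6 ha.le
      _ = _ := by ring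
  have h6 := mul_le_mul_of_nonneg_left (h5.trans h4) (show 0 ≤ N * P by positivity)
  have e2 : N * P * (r * (a - δ)) * (1 - (2 / 3 * (r * P) ^ 2 + r * P / 2) / (a - δ)) =
      N * P * (r * (a - δ) * (1 - (2 / 3 * (r * P) ^ 2 + r * P / 2) / (a - δ))) := by ring
  rw [e2] at h
  have e3 : N * P * ((1 - 4 * t) * a) = (1 - 4 * t) * (N * P * a) := by ring
  rw [e3] at h6
  linarith

/-- **The difference.** -/
theorem kdiff_num {N y β v a δ θ t ι E K1 K2 : ℝ} (hN : 0 < N) (hy : 0 < y) (hβ : 0 < β)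
    (hv : 0 < v) (ha : 0 < a) (ha4 : a ≤ 1 / 4) (ht0 : 0 < t) (ht1 : t ≤ 1 / 100)
    (hι : 30 * t ≤ ι) (hδ0 : 0 ≤ δ) (hδ : δ * a ≤ t * (y * v / β))
    (hθ0 : 0 ≤ θ) (hθ : θ ≤ t) (hP : y * v / β ≤ t * a ^ 2)
    (hE : E ≤ t * (N * (y * v / β) * a))
    (hU : K2 ≤ N * (y * (1 + θ)) ^ 2 * β ^ 2 / 4 * J (β * (y * (1 + θ))) (2 * (a + δ))
      (2 * v / β ^ 2) + E)
    (hL : N * (y / (1 + θ)) ^ 2 * β ^ 2 / 4 * J (β * (y / (1 + θ))) (2 * (a - δ))
      (v / β ^ 2) - E ≤ K1) :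
    K2 - K1 ≤ (1 + ι) * (N * y * v / β) * a := by
  have hδa : δ ≤ t * a := by
    have h1 : δ * a ≤ t * (t * a ^ 2) := hδ.trans (mul_le_mul_of_nonneg_left hP ht0.le)
    have h2 : t * (t * a ^ 2) ≤ t * a * a := by
      have q1 : t * (t * a ^ 2) = t * (t * a * a) := by ring
      rw [q1]
      exact mul_le_of_le_one_left (by positivity) (by linarith)
    exact le_of_mul_le_mul_right (h1.trans h2) ha
  have h1 := kup_num hN hy hβ hv ha ht0 ht1 hδ0 hδa hθ0 hθ hP hU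
  have h2 := klo_num hN hy hβ hv ha ha4 ht0 ht1 hδ0 hδa hθ0 hθ hP hL
  obtain ⟨P, hPe⟩ : ∃ P, P = y * v / β := ⟨_, rfl⟩
  have hP0 : 0 < P := by rw [hPe]; positivity
  rw [← hPe] at h1 h2 hδ hE
  have e1 : N * y * v / β = N * P := by rw [hPe]; ring
  rw [e1]
  have h3 : (a + δ) ^ 3 - (a - δ) ^ 3 ≤ 7 * a * (δ * a) := by
    have e : (a + δ) ^ 3 - (a - δ) ^ 3 = 6 * a * (δ * a) + 2 * δ ^ 3 := by ring
    have h4 : δ * δ ≤ 1 / 2 * a * (1 * a) := by
      have q1 : t * a ≤ 1 / 100 * a := mul_le_mul_of_nonneg_right ht1 ha.le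
      exact mul_le_mul (by linarith) (by linarith) hδ0 (by positivity)
    have h6 := mul_le_mul_of_nonneg_left h4 (show 0 ≤ 2 * δ by positivity)
    have e2 : 2 * δ * (δ * δ) = 2 * δ ^ 3 := by ring
    have e3 : 2 * δ * (1 / 2 * a * (1 * a)) = a * (δ * a) := by ring
    rw [e2, e3] at h6
    have e4 : 7 * a * (δ * a) = 6 * a * (δ * a) + a * (δ * a) := by ring
    rw [e, e4]
    linarith
  have h4 : 7 * a * (δ * a) ≤ 7 * a * (t * P) := mul_le_mul_of_nonneg_left hδ (by positivity)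
  have h5 : 2 / 3 * N * ((a + δ) ^ 3 - (a - δ) ^ 3) ≤ 2 / 3 * N * (7 * a * (t * P)) :=
    mul_le_mul_of_nonneg_left (h3.trans h4) (by positivity)
  have h6 : 2 / 3 * N * (7 * a * (t * P)) = 14 / 3 * t * (N * P * a) := by ring
  rw [h6] at h5
  have hM : 0 < N * P * a := by positivity
  have h7 : 30 * t * (N * P * a) ≤ ι * (N * P * a) := mul_le_mul_of_nonneg_right hι hM.le
  have h8 : (1 + ι) * (N * P) * a = N * P * a + ι * (N * P * a) := by ring
  rw [h8]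
  have h9 : 2 / 3 * N * ((a + δ) ^ 3 - (a - δ) ^ 3) =
      2 / 3 * N * (a + δ) ^ 3 - 2 / 3 * N * (a - δ) ^ 3 := by ring
  rw [h9] at h5
  obtain ⟨M, hMe⟩ : ∃ M, M = N * P * a := ⟨_, rfl⟩
  rw [← hMe] at h1 h2 h5 h7 hE hM ⊢
  have h10 : 0 < t * M := by positivity
  have e5 : (2 + 7 * t) * M = 2 * M + 7 * (t * M) := by ring
  have e6 : (1 - 4 * t) * M = M - 4 * (t * M) := by ring
  have e7 : 14 / 3 * t * M = 14 / 3 * (t * M) := by ring
  have e8 : 30 * t * M = 30 * (t * M) := by ring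
  rw [e5] at h1
  rw [e6] at h2
  rw [e7] at h5
  rw [e8] at h7
  linarith

end Vale.Agent.P146.H178
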