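import Vale.Agent.P146.H178.AP
import Vale.Agent.P146.H178.KNum
import Vale.Agent.P146.H178.FlowH
import Vale.Agent.P146.H529.LinkAs
import Vale.Agent.P146.H320.ConcSK

set_option linter.all false

/-!
# P146: the slopes at neighbouring exponents
-/

open MeasureTheory Set Filter Topology

namespace Vale.Agent.P146.H178

open H9 (Phn KV)
open H529 (SG)

/-- the slope at `2 v` and a slightly larger exponent -/
lemma slope_up {n : ℕ} {β y θ v a ap T : ℝ} (hn : 1 ≤ n) (hβ : 0 < β) (hy : 0 < y)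
    (hθ0 : 0 < θ) (hθ1 : θ ≤ 1) (hv : 0 < v) (hT : 0 ≤ T)
    (ha : Phn n β y (2 * v) - Phn n β y v = n / (2 * β) * (1 + a) * v)
    (hK : KV n β (y * (1 + θ)) (2 * v) ≤ n * T * (y * (1 + θ)) ^ 6)
    (hs : SG n β (y * (1 + θ)) (2 * v) ap) : ap ≤ a + 64 * β * θ * T * y ^ 5 / v := by
  have hn0 : (0 : ℝ) < n := by exact_mod_cast hn
  have hθ : 0 < 1 + θ := by linarith
  have hy' : 0 < y * (1 + θ) := by positivity
  have hyy : y ≤ y * (1 + θ) := by nlinarith
  have h1 := hs v hv.le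
  have h2 := (H9.Phn_sub_bd n β (2 * v) hy hyy).2
  have h3 := Phn_mono n β v hy hyy
  have e1 : 1 / y - 1 / (y * (1 + θ)) = θ / (y * (1 + θ)) := by
    field_simp
    ring
  rw [e1] at h2
  have h4 : KV n β (y * (1 + θ)) (2 * v) * (θ / (y * (1 + θ))) ≤ 32 * θ * n * T * y ^ 5 := by
    have h5 := mul_le_mul_of_nonneg_right hK (show 0 ≤ θ / (y * (1 + θ)) by positivity)
    refine h5.trans ?_
    have e2 : n * T * (y * (1 + θ)) ^ 6 * (θ / (y * (1 + θ))) =
        (1 + θ) ^ 5 * (θ * n * T * y ^ 5) := by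
      field_simp
    rw [e2]
    have h6 : (1 + θ) ^ 5 ≤ 2 ^ 5 := pow_le_pow_left₀ hθ.le (by linarith) 5
    have h7 := mul_le_mul_of_nonneg_right h6 (show 0 ≤ θ * n * T * y ^ 5 by positivity)
    linarith
  have h5 : n / (2 * β) * ((ap - a) * v) ≤ 32 * θ * n * T * y ^ 5 := by
    have e3 : n / (2 * β) * (1 + ap) * (v - 2 * v) = -(n / (2 * β) * (1 + ap) * v) := by ring
    rw [e3] at h1
    have e4 : n / (2 * β) * ((ap - a) * v) = n / (2 * β) * (1 + ap) * v -
        n / (2 * β) * (1 + a) * v := by ring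
    rw [e4]
    linarith
  have h6 := mul_le_mul_of_nonneg_left h5 (show 0 ≤ 2 * β / n by positivity)
  have e5 : 2 * β / n * (n / (2 * β) * ((ap - a) * v)) = (ap - a) * v := by field_simp
  have e6 : 2 * β / n * (32 * θ * n * T * y ^ 5) = 64 * β * θ * T * y ^ 5 := by
    field_simp
    ring
  rw [e5, e6] at h6
  have h7 : ap - a ≤ 64 * β * θ * T * y ^ 5 / v := by
    rw [le_div_iff₀ hv]
    exact h6
  linarith

/-- the slope at `v` and a slightly smaller exponent -/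
lemma slope_dn {n : ℕ} {β y θ v a am T : ℝ} (hn : 1 ≤ n) (hβ : 0 < β) (hy : 0 < y)
    (hθ0 : 0 < θ) (hv : 0 < v) (hT : 0 ≤ T)
    (ha : Phn n β y (2 * v) - Phn n β y v = n / (2 * β) * (1 + a) * v)
    (hK : KV n β y (2 * v) ≤ n * T * y ^ 6)
    (hs : SG n β (y / (1 + θ)) v am) : a - 64 * β * θ * T * y ^ 5 / v ≤ am := by
  have hn0 : (0 : ℝ) < n := by exact_mod_cast hn
  have hθ : 0 < 1 + θ := by linarith
  have hy' : 0 < y / (1 + θ) := by positivity
  have hyy : y / (1 + θ) ≤ y := by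
    rw [div_le_iff₀ hθ]
    nlinarith
  have h1 := hs (2 * v) (by linarith)
  have h2 := (H9.Phn_sub_bd n β (2 * v) hy' hyy).2
  have h3 := Phn_mono n β v hy' hyy
  have e1 : 1 / (y / (1 + θ)) - 1 / y = θ / y := by
    field_simp
    ring
  rw [e1] at h2
  have h4 : KV n β y (2 * v) * (θ / y) ≤ θ * n * T * y ^ 5 := by
    have h5 := mul_le_mul_of_nonneg_right hK (show 0 ≤ θ / y by positivity)
    refine h5.trans (le_of_eq ?_)
    field_simp
  have h5 : n / (2 * β) * ((a - am) * v) ≤ θ * n * T * y ^ 5 := by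
    have e3 : n / (2 * β) * (1 + am) * (2 * v - v) = n / (2 * β) * (1 + am) * v := by ring
    rw [e3] at h1
    have e4 : n / (2 * β) * ((a - am) * v) = n / (2 * β) * (1 + a) * v -
        n / (2 * β) * (1 + am) * v := by ring
    rw [e4]
    linarith
  have h6 := mul_le_mul_of_nonneg_left h5 (show 0 ≤ 2 * β / n by positivity)
  have e5 : 2 * β / n * (n / (2 * β) * ((a - am) * v)) = (a - am) * v := by field_simp
  have e6 : 2 * β / n * (θ * n * T * y ^ 5) = 2 * β * θ * T * y ^ 5 := by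
    field_simp
  rw [e5, e6] at h6
  have h7 : a - am ≤ 64 * β * θ * T * y ^ 5 / v := by
    rw [le_div_iff₀ hv]
    have : 0 ≤ β * θ * T * y ^ 5 := by positivity
    linarith
  linarith

/-- `Asec` and the increment. -/
lemma asec_eq {n : ℕ} {β y v : ℝ} (hn : 1 ≤ n) (hβ : 0 < β) (hv : 0 < v) :
    Phn n β y (2 * v) - Phn n β y v =
      n / (2 * β) * (1 + (H122.Asec β (fun n => Phn n β) n y v (2 * v) - 1)) * v := by
  have hn0 : (0 : ℝ) < n := by exact_mod_cast hn
  unfold H122.Asec H122.sec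
  have e : 2 * v - v = v := by ring
  rw [e]
  field_simp
  ring

lemma at_eq (β : ℝ) : H122.At β (fun n => Phn n β) = H877.At β := by
  funext n x v
  rw [H9.At_eq]
  rfl

/-- every slope is bounded by the a priori package -/
lemma AP.al_abs {β s0 : ℝ} (hβ : 0 < β) {n : ℕ} (hn : 1 ≤ n) {u W V a : ℝ} (hu : 0 < u)
    (h : AP β s0 n u W) (hV0 : 0 < V) (hVW : 2 * V ≤ W) (ht : SG n β u V a) :
    |a| ≤ 4 * β * ((n : ℝ) ^ s0 * u ^ 5 / V) := by
  have h1 := h.al_le hβ hn hV0 (by linarith) ht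
  have h2 := h.al_ge hβ hn hV0 hVW ht
  have h3 : 0 ≤ β * ((n : ℝ) ^ s0 * u ^ 5 / V) := by positivity
  rw [abs_le]
  constructor <;> linarith

lemma exists_SG {n : ℕ} {β y V : ℝ} (hn : 1 ≤ n) (hβ : 0 < β) (hy : 0 < y) (hy1 : y ≤ 1)
    (hV : 0 < V) : ∃ a, SG n β y V a := by
  have hn0 : (0 : ℝ) < n := by exact_mod_cast hn
  obtain ⟨σ, h1, h2, h3⟩ := H320.Conc.Phn_tangent n β hy hy1 hV
  refine ⟨2 * β / n * σ - 1, fun w hw => ?_⟩
  have e : n / (2 * β) * (1 + (2 * β / n * σ - 1)) = σ := by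
    field_simp
    ring
  rw [e]
  exact h3 w hw

end Vale.Agent.P146.H178
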