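import Vale.Agent.P146.H178.S1
import Vale.Agent.P146.H205.UpFin
import Vale.Agent.P146.H892.StartF
import Vale.Agent.P146.H643.LcFar1

set_option linter.all false

/-!
# P146: the last inputs of the two hand-ins

`up1`, `up2`, `start` : the upper half of the formula and the start, `b₁ = 1 / 1000`,
`b₀ = 1 / 4000`, from the inputs which are still open.
-/

open MeasureTheory ProbabilityTheory Set Filter Topology

namespace Vale.Agent.P146.H178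

open Vale.Agent.P146 Vale.Agent.P146.H605
open Vale.Agent.P146.H529 (Kam sA sB lA hA)

/-- **The start** from the second half of the far part of the amplitude law. -/
theorem start_out {β : ℝ} (hβ : 1 < β)
    (h2 : ∃ q0 : ℝ, 0 < q0 ∧ ∀ q : ℝ, 0 < q → q ≤ q0 → H470.LcFar2 β (1 / 1000) (1 / 4000)
      (23 * q) (10 * q) q (1 / 10) (1 / 4) q q q q (40 * q) (6 * q) (4 * q)) :
    ∃ q0 : ℝ, 0 < q0 ∧ ∀ q : ℝ, 0 < q → q ≤ q0 →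
      StartH β (1 / 1000) (23 * q) (10 * q) (24 * q) (fun n => H9.Phn n β) :=
  H892.start_far2 hβ (b₀ := 1 / 4000) (by norm_num) (by norm_num) (by norm_num)
    ⟨1 / 400000, by norm_num, fun q hq hqq => H643.LC.lcFar1 (by linarith) hq (by linarith)
      (by norm_num) (by norm_num)⟩ h2

/-- **The exponent `2 / 7`** from the two open inputs. -/
theorem resp1_out {β : ℝ} (hβ : 1 < β)
    (hBR : ∃ q0 : ℝ, 0 < q0 ∧ ∀ q : ℝ, 0 < q → q ≤ q0 → ∀ A : ℝ, 1 ≤ A →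
      H122.BRnE (1 / 7) (1 / 1000) q A β)
    (h2 : ∃ q0 : ℝ, 0 < q0 ∧ ∀ q : ℝ, 0 < q → q ≤ q0 → H470.LcFar2 β (1 / 1000) (1 / 4000)
      (23 * q) (10 * q) q (1 / 10) (1 / 4) q q q q (40 * q) (6 * q) (4 * q)) :
    (∃ q0 : ℝ, 0 < q0 ∧ ∀ q, 0 < q → q ≤ q0 → KampUp β (1 / 1000) (1 / 6 - 1 / 7 + 1000 * q)
      (q / 2) (10 * q) (11 * q) (24 * q) q (Kam β (sA q) (lA q) (hA q))) ∧
    (∃ q0 : ℝ, 0 < q0 ∧ ∀ q, 0 < q → q ≤ q0 → StartH β (1 / 1000) (23 * q) (10 * q) (24 * q)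
      (fun n => H9.Phn n β)) :=
  ⟨H205.UpF.up_A hβ (by norm_num) hBR, start_out hβ h2⟩

/-- **The exponent `1 / 3`** from the four open inputs. -/
theorem resp2_out {β : ℝ} (hβ : 1 < β)
    (hBR : ∃ q0 : ℝ, 0 < q0 ∧ ∀ q : ℝ, 0 < q → q ≤ q0 → ∀ A : ℝ, 1 ≤ A →
      H122.BRnE (1 / 6) (1 / 1000) q A β)
    (hR : ∃ q0 : ℝ, 0 < q0 ∧ ∀ q : ℝ, 0 < q → q ≤ q0 → ∀ A : ℝ, 1 ≤ A →
      H463.RowUp2F (1 / 6) (1 / 1000) q A β)
    (hN : ∃ q0 : ℝ, 0 < q0 ∧ ∀ q : ℝ, 0 < q → q ≤ q0 → ∀ A : ℝ, 1 ≤ A →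
      H463.NeFinE (1 / 6) (1 / 1000) q A β)
    (h2 : ∃ q0 : ℝ, 0 < q0 ∧ ∀ q : ℝ, 0 < q → q ≤ q0 → H470.LcFar2 β (1 / 1000) (1 / 4000)
      (23 * q) (10 * q) q (1 / 10) (1 / 4) q q q q (40 * q) (6 * q) (4 * q)) :
    (∃ q0 : ℝ, 0 < q0 ∧ ∀ q, 0 < q → q ≤ q0 → KampUp β (1 / 1000) (1 / 6 - 1 / 6 + 1000 * q)
      (q / 2) (10 * q) (11 * q) (24 * q) q (Kam β (sB q) (lA q) (hA q))) ∧
    (∃ q0 : ℝ, 0 < q0 ∧ ∀ q, 0 < q → q ≤ q0 → StartH β (1 / 1000) (23 * q) (10 * q) (24 * q)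
      (fun n => H9.Phn n β)) :=
  ⟨H205.UpF.up_S2 hβ (by norm_num) hBR hR hN, start_out hβ h2⟩

end Vale.Agent.P146.H178
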