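import Vale.Agent.P146.H178.S1
import Vale.Agent.P146.H320.S1M
import Vale.Agent.P146.H205.UpFin
import Vale.Agent.P146.H22.StartP

set_option linter.all false

/-!
# P146: the two hand-ins from the open inputs of the upper half

The start is `H22.startH_q`.
-/

open MeasureTheory ProbabilityTheory Set Filter Topology

namespace Vale.Agent.P146.H178

open Vale.Agent.P146 Vale.Agent.P146.H605
open Vale.Agent.P146.H529 (Kam sA sB lA hA)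

/-- The two inputs at the exponent `2 / 7` from the number of the big overlaps. -/
theorem in1 {β : ℝ} (hβ : 1 < β)
    (hBR : ∃ q0 : ℝ, 0 < q0 ∧ ∀ q : ℝ, 0 < q → q ≤ q0 → ∀ A : ℝ, 1 ≤ A →
      H122.BRnE (1 / 7) (1 / 1000) q A β) :
    (∃ q0 : ℝ, 0 < q0 ∧ ∀ q, 0 < q → q ≤ q0 → KampUp β (1 / 1000) (1 / 6 - 1 / 7 + 1000 * q)
      (q / 2) (10 * q) (11 * q) (24 * q) q (Kam β (sA q) (lA q) (hA q))) ∧
    (∃ q0 : ℝ, 0 < q0 ∧ ∀ q, 0 < q → q ≤ q0 → StartH β (1 / 1000) (23 * q) (10 * q) (24 * q)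
      (fun n => H9.Phn n β)) :=
  ⟨H205.UpF.up_A hβ (by norm_num) hBR, H22.startH_q hβ (by norm_num) (by norm_num)⟩

/-- The two inputs at the exponent `1 / 3` from the three open inputs. -/
theorem in2 {β : ℝ} (hβ : 1 < β)
    (hBR : ∃ q0 : ℝ, 0 < q0 ∧ ∀ q : ℝ, 0 < q → q ≤ q0 → ∀ A : ℝ, 1 ≤ A →
      H122.BRnE (1 / 6) (1 / 1000) q A β)
    (hR : ∃ q0 : ℝ, 0 < q0 ∧ ∀ q : ℝ, 0 < q → q ≤ q0 → ∀ A : ℝ, 1 ≤ A →
      H463.RowUp2F (1 / 6) (1 / 1000) q A β)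
    (hN : ∃ q0 : ℝ, 0 < q0 ∧ ∀ q : ℝ, 0 < q → q ≤ q0 → ∀ A : ℝ, 1 ≤ A →
      H463.NeFinE (1 / 6) (1 / 1000) q A β) :
    (∃ q0 : ℝ, 0 < q0 ∧ ∀ q, 0 < q → q ≤ q0 → KampUp β (1 / 1000) (1 / 6 - 1 / 6 + 1000 * q)
      (q / 2) (10 * q) (11 * q) (24 * q) q (Kam β (sB q) (lA q) (hA q))) ∧
    (∃ q0 : ℝ, 0 < q0 ∧ ∀ q, 0 < q → q ≤ q0 → StartH β (1 / 1000) (23 * q) (10 * q) (24 * q)
      (fun n => H9.Phn n β)) :=
  ⟨H205.UpF.up_S2 hβ (by norm_num) hBR hR hN, H22.startH_q hβ (by norm_num) (by norm_num)⟩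

end Vale.Agent.P146.H178
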