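import Vale.Agent.P146.H418.Fin1
import Vale.Agent.P146.H519.Asym
import Vale.Agent.P146.H9.Sides

set_option linter.all false

/-!
# P146: the statements of the two hand-ins from the two last inputs

`s1_of` : exponent `2 / 7`; `s2_of` : exponent `1 / 3`.
-/

open MeasureTheory ProbabilityTheory Set Filter Topology

namespace Vale.Agent.P146.H178

open Vale.Agent.P146 Vale.Agent.P146.H605
open Vale.Agent.P146.H529 (Kam sA sB lA hA)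

/-- **The exponent `2 / 7`.** -/
theorem s1_of {β b₁ : ℝ} (hβ : 1 < β) (h0 : 0 < b₁) (h1 : b₁ < 2 / 17)
    (hU : ∃ q0 : ℝ, 0 < q0 ∧ ∀ q, 0 < q → q ≤ q0 → KampUp β b₁ (1 / 6 - 1 / 7 + 1000 * q) (q / 2)
      (10 * q) (11 * q) (24 * q) q (Kam β (sA q) (lA q) (hA q)))
    (hS : ∃ q0 : ℝ, 0 < q0 ∧ ∀ q, 0 < q → q ≤ q0 → StartH β b₁ (23 * q) (10 * q) (24 * q)
      (fun n => H9.Phn n β)) :
    (∀ ε : ℝ, 0 < ε → ∀ᶠ n : ℕ in atTop,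
      (n : ℝ) ^ (2 / 7 - ε) ≤ Var[freeEnergy n β; disorder n] ∧
      Var[freeEnergy n β; disorder n] ≤ (n : ℝ) ^ (1 / 3 + ε) ∧
      (∀ x : ℝ, (n : ℝ) ^ (-(1 / 7) + ε) ≤ x → x ≤ 1 →
        (n : ℝ) ^ (1 - ε) * x ^ 6 ≤ Real.log (∫ g, Real.exp (x * (freeEnergy n β g -
          ∫ h, freeEnergy n β h ∂(disorder n))) ∂(disorder n)) ∧
        Real.log (∫ g, Real.exp (x * (freeEnergy n β g -
          ∫ h, freeEnergy n β h ∂(disorder n))) ∂(disorder n)) ≤ (n : ℝ) ^ (1 + ε) * x ^ 6) ∧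
      (∃ t : ℝ, 0 ≤ t ∧ t < 1 ∧ (n : ℝ) ^ (2 / 7 - ε) ≤ n * (1 - t) * crossOverlap n β t)) ∧
    (∀ κ c : ℝ, 0 ≤ κ → κ + c < 1 / 7 → ∀ᶠ n : ℕ in atTop, ∀ y : ℝ,
      (disorder n).real {g | |freeEnergy n β g - y| ≤ (n : ℝ) ^ κ} ≤ (n : ℝ) ^ (-c)) ∧
    (∃ δ : ℝ, 0 < δ ∧ ∀ ε : ℝ, 0 < ε → ∀ᶠ n : ℕ in atTop,
      ∀ s : ℝ, (n : ℝ) ^ (-(5 / 7) + ε : ℝ) ≤ s → s ≤ δ →
      Real.exp (-((n : ℝ) ^ (1 + ε) * s ^ (6 / 5 : ℝ))) ≤ (disorder n).real {g |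
        ∫ h, freeEnergy n β h ∂(disorder n) + n * s ≤ freeEnergy n β g} ∧
      (disorder n).real {g | ∫ h, freeEnergy n β h ∂(disorder n) + n * s ≤ freeEnergy n β g} ≤
        Real.exp (-((n : ℝ) ^ (1 - ε) * s ^ (6 / 5 : ℝ)))) := by
  obtain ⟨q1, hq1, hU⟩ := hU
  obtain ⟨q2, hq2, hS⟩ := hS
  have hR : RespQ (1 / 7) b₁ (H877.At β) :=
    H418.resp_A (q0 := min q1 q2) hβ le_rfl h0 (lt_min hq1 hq2)
      (fun q a b => hU q a (b.trans (min_le_left _ _)))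
      (fun q a b => hS q a (b.trans (min_le_right _ _)))
  have h := mainQ hβ (q := 1 / 7) (by norm_num) (by norm_num) h0 h1 hR
  have e1 : (2 * (1 / 7) : ℝ) = 2 / 7 := by norm_num
  have e2 : (5 * (1 / 7) : ℝ) = 5 / 7 := by norm_num
  rw [e1, e2] at h
  exact h

/-- **The response at all scales** from the upper half of the formula and the start. -/
theorem resp2_of {β b₁ : ℝ} (hβ : 1 < β) (h0 : 0 < b₁)
    (hU : ∃ q0 : ℝ, 0 < q0 ∧ ∀ q, 0 < q → q ≤ q0 → KampUp β b₁ (1 / 6 - 1 / 6 + 1000 * q) (q / 2)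
      (10 * q) (11 * q) (24 * q) q (Kam β (sB q) (lA q) (hA q)))
    (hS : ∃ q0 : ℝ, 0 < q0 ∧ ∀ q, 0 < q → q ≤ q0 → StartH β b₁ (23 * q) (10 * q) (24 * q)
      (fun n => H9.Phn n β)) : Resp b₁ (H877.At β) := by
  obtain ⟨q1, hq1, hU⟩ := hU
  obtain ⟨q2, hq2, hS⟩ := hS
  exact (respQ_iff b₁ (H877.At β)).1 <|
    H418.resp_B (a0 := 1 / 6) (q0 := min q1 q2) hβ le_rfl h0 (lt_min hq1 hq2)
      (fun q a b => hU q a (b.trans (min_le_left _ _)))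
      (fun q a b => hS q a (b.trans (min_le_right _ _)))

/-- **The exponent `1 / 3`.** -/
theorem s2_of {β b₁ : ℝ} (hβ : 1 < β) (h0 : 0 < b₁) (h1 : b₁ < 2 / 17)
    (hU : ∃ q0 : ℝ, 0 < q0 ∧ ∀ q, 0 < q → q ≤ q0 → KampUp β b₁ (1 / 6 - 1 / 6 + 1000 * q) (q / 2)
      (10 * q) (11 * q) (24 * q) q (Kam β (sB q) (lA q) (hA q)))
    (hS : ∃ q0 : ℝ, 0 < q0 ∧ ∀ q, 0 < q → q ≤ q0 → StartH β b₁ (23 * q) (10 * q) (24 * q)
      (fun n => H9.Phn n β)) :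
    Tendsto (fun n : ℕ => Real.log (Var[freeEnergy n β; disorder n]) / Real.log n) atTop
      (𝓝 (1 / 3)) ∧
    (∀ ε : ℝ, 0 < ε → ∀ᶠ n : ℕ in atTop,
      (n : ℝ) ^ (1 / 3 - ε) ≤ Var[freeEnergy n β; disorder n] ∧
      Var[freeEnergy n β; disorder n] ≤ (n : ℝ) ^ (1 / 3 + ε) ∧
      (disorder n).real {g | (n : ℝ) ^ (1 / 6 + ε) ≤
        |freeEnergy n β g - ∫ h, freeEnergy n β h ∂(disorder n)|} ≤
          Real.exp (-((n : ℝ) ^ (ε / 3))) ∧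
      (∀ x : ℝ, (n : ℝ) ^ (-(1 / 6) + ε) ≤ x → x ≤ 1 →
        (n : ℝ) ^ (1 - ε) * x ^ 6 ≤ Real.log (∫ g, Real.exp (x * (freeEnergy n β g -
          ∫ h, freeEnergy n β h ∂(disorder n))) ∂(disorder n)) ∧
        Real.log (∫ g, Real.exp (x * (freeEnergy n β g -
          ∫ h, freeEnergy n β h ∂(disorder n))) ∂(disorder n)) ≤ (n : ℝ) ^ (1 + ε) * x ^ 6) ∧
      (∃ t : ℝ, 0 ≤ t ∧ t < 1 ∧ (n : ℝ) ^ (1 / 3 - ε) ≤ n * (1 - t) * crossOverlap n β t) ∧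
      (∀ t : ℝ, 0 ≤ t → t < 1 → n * (1 - t) * crossOverlap n β t ≤ (n : ℝ) ^ (1 / 3 + ε))) ∧
    (∀ κ c : ℝ, 0 ≤ κ → κ + c < 1 / 6 → ∀ᶠ n : ℕ in atTop, ∀ y : ℝ,
      (disorder n).real {g | |freeEnergy n β g - y| ≤ (n : ℝ) ^ κ} ≤ (n : ℝ) ^ (-c)) ∧
    (∃ δ : ℝ, 0 < δ ∧ ∀ ε : ℝ, 0 < ε → ∀ᶠ n : ℕ in atTop,
      ∀ s : ℝ, (n : ℝ) ^ (-(5 / 6) + ε : ℝ) ≤ s → s ≤ δ →
      Real.exp (-((n : ℝ) ^ (1 + ε) * s ^ (6 / 5 : ℝ))) ≤ (disorder n).real {g |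
        ∫ h, freeEnergy n β h ∂(disorder n) + n * s ≤ freeEnergy n β g} ∧
      (disorder n).real {g | ∫ h, freeEnergy n β h ∂(disorder n) + n * s ≤ freeEnergy n β g} ≤
        Real.exp (-((n : ℝ) ^ (1 - ε) * s ^ (6 / 5 : ℝ)))) ∧
    (∀ ε : ℝ, 0 < ε → ∃ δ : ℝ, 0 < δ ∧ ∀ᶠ n : ℕ in atTop, ∀ u : ℝ,
      (n : ℝ) ^ ε ≤ u → u ≤ δ * (n : ℝ) ^ (5 / 6 - ε) →
        Real.exp (-((n : ℝ) ^ ε * u ^ (6 / 5 : ℝ))) ≤
          (disorder n).real {g | ∫ h, freeEnergy n β h ∂(disorder n) +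
            u * √(Var[freeEnergy n β; disorder n]) ≤ freeEnergy n β g} ∧
        (disorder n).real {g | freeEnergy n β g ≤ ∫ h, freeEnergy n β h ∂(disorder n) -
            u * √(Var[freeEnergy n β; disorder n])} ≤ Real.exp (-(u ^ 2 / 2)) ∧
        Real.exp (u ^ 2 / 4) * (disorder n).real {g | freeEnergy n β g ≤
            ∫ h, freeEnergy n β h ∂(disorder n) - u * √(Var[freeEnergy n β; disorder n])} ≤
          (disorder n).real {g | ∫ h, freeEnergy n β h ∂(disorder n) +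
            u * √(Var[freeEnergy n β; disorder n]) ≤ freeEnergy n β g}) ∧
    (∀ ε : ℝ, 0 < ε → ∀ᶠ n : ℕ in atTop,
      (n : ℝ) ^ (-ε) ≤ (disorder n).real {g |
        freeEnergy n β g ≤ ∫ h, freeEnergy n β h ∂(disorder n) - (n : ℝ) ^ (1 / 6 - ε)} ∧
      (n : ℝ) ^ (-ε) ≤ (disorder n).real {g |
        ∫ h, freeEnergy n β h ∂(disorder n) + (n : ℝ) ^ (1 / 6 - ε) ≤ freeEnergy n β g}) := by
  have hR : Resp b₁ (H877.At β) := resp2_of hβ h0 hU hS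
  obtain ⟨g1, g2, g3, g4⟩ := main hβ h0 h1 hR
  have e1 : (2 * (1 / 6) : ℝ) = 1 / 3 := by norm_num
  have hS := H9.sides (q := 1 / 6) (by linarith) (by norm_num)
    (by rw [e1]; exact lowV_of_resp hβ h0 h1 hR) (fun ε hε => (g2 ε hε).mono fun n h => h.2.1)
  refine ⟨g1, g2, g3, g4, H519.asym hβ (lob_of_resp hβ h0 h1 hR), fun ε hε => ?_⟩
  have e2 : (2 * (1 / 6) - 1 / 3 - ε : ℝ) = -ε := by ring
  have h3 := hS ε hε
  rw [e2] at h3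
  exact h3

end Vale.Agent.P146.H178
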