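import Vale.Agent.P146.H178.FinQ
import Vale.Agent.P146.H178.KDiffA

set_option linter.all false

/-!
# P146: the end of the chain for the natural functional

`Phn n β x v = (1 / x) log E exp (x F)`, `F` the free energy with a Gaussian field of the variance
`v`, `KV n β x v` the relative entropy of the law tilted by `exp (x F)`.
-/

open MeasureTheory ProbabilityTheory Set Filter Topology

namespace Vale.Agent.P146.H178

open Vale.Agent.P146 Vale.Agent.P146.H605
open Vale.Agent.P146.H9 (Phn KV)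

/-- The upper law of the exponential moments. -/
theorem upK {β : ℝ} (hβ : 1 < β) : UpK β := by
  intro ε hε
  have hU : H695.UpM β (1 / 16) := X7.H737.upM (by linarith) (by norm_num)
  exact H260.Dev.moments_up hβ (by norm_num) (by norm_num) hU ε hε

/-- **The response from the input of the flow.** -/
theorem respQ_of_flowIn {q β b₁ : ℝ} (hq : q ≤ 1 / 6) (hβ : 1 < β) (hb₁ : 0 < b₁)
    (hF : FlowInQ q β b₁ (fun n => Phn n β) (fun n => KV n β)) : RespQ q b₁ (H877.At β) := by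
  have h := resp_of_kdiffQ hq (by linarith) hb₁
    (fun n _ x hx hx1 => Vale.Agent.P146.H320.Conc.Phn_conc n β hx (by linarith))
    (fun n _ x hx _ v _ => Vale.Agent.P146.H9.hasDerivAt_Phn n β v hx) hF
  rwa [at_eq] at h

/-- The numbers of the last stage and its inputs. -/
structure Stage (q β b₁ : ℝ) (Ka : ℕ → ℝ → ℝ → ℝ → ℝ) (e s s' d0 d : ℝ) : Prop where
  hs : 0 < s
  hss : s < s'
  hd0 : 0 < d0
  hdd : d0 < d
  hsd : s' + d ≤ e
  hs2 : 2 * s' < d
  start : StartH β b₁ d0 s d (fun n => Phn n β)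
  ex : ∃ s0 c ch g w : ℝ, 0 < s0 ∧ 0 < c ∧ 0 < ch ∧ 2 * d + s0 - s < ch ∧ d + s' < g ∧
    s0 + d < w ∧ LinkUp β (1 / 6 - q + e) ch g w d Ka ∧ LinkDn β (1 / 6 - q + e) ch g w d Ka ∧
    KampUp β b₁ (1 / 6 - q + e) s0 s s' d c Ka ∧ KampLow β b₁ (1 / 6 - q + e) s0 s s' d c Ka

/-- **The input of the flow from the last stage.** The auxiliary law may depend on `e`. -/
theorem flowIn_of_stage {q β b₁ : ℝ} (hq : q ≤ 1 / 6) (hβ : 1 < β) (hb₁ : 0 < b₁)
    (h : ∀ e : ℝ, 0 < e → ∃ (Ka : ℕ → ℝ → ℝ → ℝ → ℝ) (s s' d0 d : ℝ),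
      Stage q β b₁ Ka e s s' d0 d) :
    FlowInQ q β b₁ (fun n => Phn n β) (fun n => KV n β) := by
  intro e he
  obtain ⟨Ka, s, s', d0, d, hS⟩ := h e he
  obtain ⟨s0, c, ch, g, w, h1, h2, h3, h4, h5, h6, LU, LD, KU, KL⟩ := hS.ex
  exact ⟨s, s', d0, d, hS.hs, hS.hss, hS.hd0, hS.hdd, hS.hsd, hS.start,
    kdiffH_of hβ hb₁ (by linarith) (upK hβ) h1 hS.hs h2 h3 hS.hs2 (hS.hd0.trans hS.hdd) h4 h5 h6
      LU LD KU KL⟩

end Vale.Agent.P146.H178
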