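import Vale.Agent.P146.H178.Top
import Vale.Agent.P146.H418.LinkLit
import Vale.Agent.P146.H892.StartM
import Vale.Agent.P146.H75.LcLit

set_option linter.all false

/-!
# P146: the response from the formula of the entropy and the start

`Inp a0 q β sF` are the inputs at one unit `q`: the two halves of the formula for the amplitude law
with the modulated field `sF`, and the smallness of the entropy at the start. From the inputs at
every small unit one gets the response for `x ≥ n ^ (-a0 + e)`.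
-/

open MeasureTheory ProbabilityTheory Set Filter Topology

namespace Vale.Agent.P146.H178

open Vale.Agent.P146 Vale.Agent.P146.H605
open Vale.Agent.P146.H9 (Phn KV)
open Vale.Agent.P146.H529 (Kam sA sB lA hA)

/-- The entropy is small at the start, for the amplitude law. -/
def Lc (q β : ℝ) : Prop := ∃ s0 k1 k2 ce cl : ℝ, 0 < s0 ∧ 0 < k1 ∧ k1 ≤ k2 ∧ 0 < ce ∧ 0 ≤ cl ∧
  10 * q + s0 + 8 * (1 / 20) < 1 ∧ 10 * q + 2 * s0 + 2 * (1 / 20) < k2 + ce ∧
  H75.LCampL β (1 / 20) (1 / 80) (23 * q) (10 * q) s0 k1 k2 ce cl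

/-- The entropy is small at the start. -/
def Lcq (q β : ℝ) : Prop :=
  H892.LCin β (1 / 20) (1 / 80) (23 * q) (10 * q) (fun n x v => Phn n β x v) fun n x v => KV n β x v

theorem lcq_of_lc {q β : ℝ} (hβ : 1 < β) (hq : 0 < q) (h : Lc q β) : Lcq q β := by
  obtain ⟨s0, k1, k2, ce, cl, h1, h2, h3, h4, h5, h6, h7, h8⟩ := h
  exact H75.lcin_of_L hβ (upK hβ) (by norm_num) (by norm_num) (by norm_num) (by linarith) h1
    (by linarith) h2 h3 h4 h5 h6 h7 h8

/-- The two halves of the formula at one unit. -/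
structure Kf (a0 q β : ℝ) (sF : ℕ → ℝ → ℝ → ℝ) : Prop where
  up : KampUp β (1 / 20) (1 / 6 - a0 + 1000 * q) (q / 2) (10 * q) (11 * q) (24 * q) q
    (Kam β sF (lA q) (hA q))
  low : KampLow β (1 / 20) (1 / 6 - a0 + 1000 * q) (q / 2) (10 * q) (11 * q) (24 * q) q
    (Kam β sF (lA q) (hA q))

/-- The start. -/
theorem start_of_lcq {q β : ℝ} (hβ : 1 < β) (hq : 0 < q) (hq1 : q ≤ 1 / 1000) (h : Lcq q β) :
    StartH β (1 / 20) (23 * q) (10 * q) (24 * q) (fun n => Phn n β) :=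
  H892.startM hβ (by linarith) (by linarith) (by linarith) (by linarith) h

/-- **The response, first choice of the modulated field.** -/
theorem respQ_A {a0 q0 β : ℝ} (ha0 : a0 ≤ 1 / 6) (hβ : 1 < β) (hq0 : 0 < q0)
    (hK : ∀ q, 0 < q → q ≤ q0 → Kf a0 q β (sA q)) (hL : ∀ q, 0 < q → q ≤ q0 → Lcq q β) :
    RespQ a0 (1 / 20) (H877.At β) := by
  have h1 : 0 < min q0 (1 / 1000) := lt_min hq0 (by norm_num)
  have h2 : ∀ q, q ≤ min q0 (1 / 1000) → q ≤ q0 := fun q h => h.trans (min_le_left _ _)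
  have h3 : ∀ q, q ≤ min q0 (1 / 1000) → q ≤ 1 / 1000 := fun q h => h.trans (min_le_right _ _)
  refine respQ_of_flowIn ha0 hβ (by norm_num) (flowIn_of_stage ha0 hβ (by norm_num) fun e he => ?_)
  obtain ⟨K, s, s', d0, d, g1, g2, g3, g4, g5, g6, g7, g8⟩ := H418.stage_A (b₁ := 1 / 20)
    (by linarith) ha0 h1 (fun q a b => (hK q a (h2 q b)).up) (fun q a b => (hK q a (h2 q b)).low)
    (fun q a b => start_of_lcq hβ a (h3 q b) (hL q a (h2 q b))) e he
  exact ⟨K, s, s', d0, d, g1, g2, g3, g4, g5, g6, g7, g8⟩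

/-- **The response, second choice of the modulated field.** -/
theorem respQ_B {a0 q0 β : ℝ} (ha0 : a0 ≤ 1 / 6) (hβ : 1 < β) (hq0 : 0 < q0)
    (hK : ∀ q, 0 < q → q ≤ q0 → Kf a0 q β (sB q)) (hL : ∀ q, 0 < q → q ≤ q0 → Lcq q β) :
    RespQ a0 (1 / 20) (H877.At β) := by
  have h1 : 0 < min q0 (1 / 1000) := lt_min hq0 (by norm_num)
  have h2 : ∀ q, q ≤ min q0 (1 / 1000) → q ≤ q0 := fun q h => h.trans (min_le_left _ _)
  have h3 : ∀ q, q ≤ min q0 (1 / 1000) → q ≤ 1 / 1000 := fun q h => h.trans (min_le_right _ _)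
  refine respQ_of_flowIn ha0 hβ (by norm_num) (flowIn_of_stage ha0 hβ (by norm_num) fun e he => ?_)
  obtain ⟨K, s, s', d0, d, g1, g2, g3, g4, g5, g6, g7, g8⟩ := H418.stage_B (b₁ := 1 / 20)
    (by linarith) ha0 h1 (fun q a b => (hK q a (h2 q b)).up) (fun q a b => (hK q a (h2 q b)).low)
    (fun q a b => start_of_lcq hβ a (h3 q b) (hL q a (h2 q b))) e he
  exact ⟨K, s, s', d0, d, g1, g2, g3, g4, g5, g6, g7, g8⟩

end Vale.Agent.P146.H178
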